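import Vale.Agent.P017.R4.H222.Asm1

/-!
# P017, even discriminants: irregular `d`, assembly
-/

open Finset Filter Topology

namespace Vale.Agent.P017.R4.H222

open Vale.Agent.P017.R3
open Vale.Agent.P017.R2.H985 (PF)
open Vale.Agent.P017.R3.H420 (rl ks mem_rl rl_prod smp_mul smp_dvd smp_pf bi_spec RegD)
open Vale.Agent.P017.R3.H222 (exists_l exists_δ top_card exists_J reg_of)

variable {P : ℝ → ℝ → ℕ → ℕ → ℕ → Prop}

open Classical in
/-- **Half (b)**. -/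
theorem halfB {r : ℕ} (hr : r % 2 = 1) (hTK : StmtTK) (hSm : StmtSmooth) (hSa : StmtSame)
    (hCk : StmtCk) (hEx : ExP P) (S : Sys) (hRM : S.StmtRM) : HalfB P r S := by
  intro η₁ δ h0 hη hδ hδ1
  set δ₀ : ℝ := δ / 8 with hδ₀
  have hδ0 : 0 < δ₀ := by positivity
  obtain ⟨U, hU, hSm⟩ := hSm δ₀ hδ0
  obtain ⟨B, hCk⟩ := hCk δ₀ U hδ0
  obtain ⟨h, k, hRM⟩ := hRM η₁ B hη
  obtain ⟨b1, hb1, hb1', X1, hTK1⟩ := hTK (k + 1) δ₀ (1 / 4) hδ0 (by norm_num) le_rfl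
  set b : ℝ := min b1 (1 / (2 * U + 2)) with hb
  have hU0 : (0 : ℝ) ≤ U := Nat.cast_nonneg U
  have hb0 : 0 < b := lt_min hb1 (by positivity)
  have hbb1 : b ≤ b1 := min_le_left _ _
  have hbU : b ≤ 1 / (2 * U + 2) := min_le_right _ _
  obtain ⟨b2, hb2, hb2', X2, hTK2⟩ := hTK h δ₀ b hδ0 hb0 (by linarith)
  set a : ℝ := b2 / 2 with ha
  have ha0 : 0 < a := by positivity
  set T : ℕ := ⌈1 / a⌉₊ with hT
  have hTa : 1 < a * ((T + 1 : ℕ) : ℝ) := by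
    have h1 : 1 / a ≤ T := Nat.le_ceil _
    rw [div_le_iff₀ ha0] at h1
    push_cast
    nlinarith
  obtain ⟨l, hl, hl2, hlT⟩ := exists_l T hδ0
  obtain ⟨δ', hd0, hd1, hdT⟩ := exists_δ T hδ
  obtain ⟨X3, hSa⟩ := hSa a δ₀ ha0 hδ0
  obtain ⟨X4, hEx⟩ := hEx l hl hl2 a δ' δ ha0 hd0 hδ
  -- `X ^ a ≥ 5`
  have hlim : Tendsto (fun X : ℕ => (X : ℝ) ^ a) atTop atTop :=
    (tendsto_rpow_atTop ha0).comp tendsto_natCast_atTop_atTop
  obtain ⟨X5, hX5⟩ := eventually_atTop.1 (hlim.eventually_ge_atTop 5)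
  obtain ⟨X6, hX6⟩ := exists_nat_ge (1 / δ₀)
  refine ⟨l, δ', T, hl, hl2, hd0, hd1, hdT,
    max X1 (max X2 (max X3 (max X4 (max X5 (max X6 1))))), fun X hX => ?_⟩
  simp only [max_le_iff] at hX
  obtain ⟨hX1, hX2, hX3, hX4, hX5', hX6', hX7⟩ := hX
  have hXr : (1 : ℝ) ≤ X := by exact_mod_cast hX7
  have hXr0 : (0 : ℝ) < X := by linarith
  have h5 : 5 ≤ (X : ℝ) ^ a := hX5 X hX5'
  obtain ⟨J, hJ1, hJ2⟩ := exists_J hl hl2 hb2 hX7 h5
  have hz5 : 5 ≤ l ^ J := h5.trans hJ1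
  refine ⟨J, hz5, ?_, ?_⟩
  swap
  · -- bad prefixes
    refine le_trans ?_ (hEx X hX4)
    unfold BadSP BadNP
    refine sum_le_sum fun d _ => ?_
    have : (d.primeFactors.filter (fun q : ℕ => l ^ J < q ∧
        (∀ p ∈ d.primeFactors, p < q → (p : ℝ) ≤ l ^ bi l q) ∧
        P l δ' (bi l q) (q % 4) (Nat.lcm (∏ p ∈ d.primeFactors.filter (· < q), p) 15))) ⊆
      (d.primeFactors.filter (fun q : ℕ => (X : ℝ) ^ a < q ∧
        (∀ p ∈ d.primeFactors, p < q → (p : ℝ) ≤ l ^ bi l q) ∧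
        P l δ' (bi l q) (q % 4) (Nat.lcm (∏ p ∈ d.primeFactors.filter (· < q), p) 15))) := by
      intro q hq
      rw [mem_filter] at hq ⊢
      exact ⟨hq.1, lt_of_le_of_lt hJ1 hq.2.1, hq.2.2⟩
    exact_mod_cast card_le_card this
  -- the exceptional sets
  set z : ℝ := l ^ J with hz
  have hz2 : 2 ≤ z := by linarith
  set A1 := (Icc 1 X).filter (fun d => Squarefree d ∧ z ^ U < smp z d) with hA1
  set A2 := (Icc 1 X).filter (fun d => Squarefree d ∧ Odd d ∧ (smp z d : ℝ) ≤ z ^ U ∧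
    B < avg (fun u : PF (smp z d) → ZMod 2 =>
      (2 : ℝ) ^ ck (AA (smp z d) + Matrix.diagonal u))) with hA2
  set A3 := (Icc 1 X).filter (fun d => (d.primeFactors.filter (fun p : ℕ => p % 4 = 3 ∧
    (X : ℝ) ^ b1 < p ∧ (p : ℝ) ≤ (X : ℝ) ^ (1 / 4 : ℝ))).card < k + 1) with hA3
  set A4 := (Icc 1 X).filter (fun d => (d.primeFactors.filter (fun p : ℕ => p % 4 = 3 ∧
    (X : ℝ) ^ b2 < p ∧ (p : ℝ) ≤ (X : ℝ) ^ b)).card < h) with hA4
  set A5 := (Icc 1 X).filter (fun d => ∃ p q : ℕ, p.Prime ∧ q.Prime ∧ (X : ℝ) ^ a < p ∧ p < q ∧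
    q ≤ 2 * p ∧ p * q ∣ d) with hA5
  set A6 := (Icc 1 X).filter (fun d : ℕ => (X : ℝ) < l ^ T * d) with hA6
  have c1 : (A1.card : ℝ) ≤ δ₀ * X := hSm z hz2 X
  have c2 : (A2.card : ℝ) ≤ δ₀ * X := by
    refine hCk z hz2 X ?_
    have h6 : b2 * ((2 * U + 2 : ℕ) : ℝ) ≤ 1 := by
      have h7 : b2 ≤ 1 / (2 * U + 2) := hb2'.le.trans hbU
      rw [le_div_iff₀ (by positivity)] at h7
      push_cast
      exact h7
    calc z ^ (2 * U + 2) ≤ ((X : ℝ) ^ b2) ^ (2 * U + 2) :=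
          pow_le_pow_left₀ (by linarith) hJ2 _
      _ = (X : ℝ) ^ (b2 * ((2 * U + 2 : ℕ) : ℝ)) := by
          rw [Real.rpow_mul hXr0.le, Real.rpow_natCast]
      _ ≤ (X : ℝ) ^ (1 : ℝ) := Real.rpow_le_rpow_of_exponent_le hXr h6
      _ = X := Real.rpow_one _
  have c3 : (A3.card : ℝ) ≤ δ₀ * X := hTK1 X hX1
  have c4 : (A4.card : ℝ) ≤ δ₀ * X := hTK2 X hX2
  have c5 : (A5.card : ℝ) ≤ δ₀ * X := hSa X hX3
  have c6 : (A6.card : ℝ) ≤ δ₀ * X + 1 :=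
    top_card (one_le_pow₀ hl.le) hlT X _ fun d hd => hd
  have c7 : (1 : ℝ) ≤ δ₀ * X := by
    have h1 : (1 / δ₀ : ℝ) ≤ X := hX6.trans (by exact_mod_cast hX6')
    rw [div_le_iff₀ hδ0] at h1
    linarith
  have hsub : (DenR r S X).filter (fun d => ¬ RegD S l J T η₁ X d) ⊆
      A1 ∪ (A2 ∪ (A3 ∪ (A4 ∪ (A5 ∪ A6)))) := by
    intro d hd
    rw [mem_filter] at hd
    obtain ⟨hdD, hreg⟩ := hd
    unfold DenR at hdD
    rw [mem_filter] at hdD
    obtain ⟨hdI, hsq, hd4, hOK⟩ := hdD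
    by_contra hc
    simp only [mem_union, not_or] at hc
    obtain ⟨n1, n2, n3, n4, n5, n6⟩ := hc
    have hodd : Odd d := Nat.odd_iff.2 (by omega)
    have m1 : ¬ (Squarefree d ∧ z ^ U < smp z d) := fun h => n1 (mem_filter.2 ⟨hdI, h⟩)
    have m2 : ¬ (Squarefree d ∧ Odd d ∧ (smp z d : ℝ) ≤ z ^ U ∧
      B < avg (fun u : PF (smp z d) → ZMod 2 =>
        (2 : ℝ) ^ ck (AA (smp z d) + Matrix.diagonal u))) := fun h => n2 (mem_filter.2 ⟨hdI, h⟩)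
    have m3 : k + 1 ≤ (d.primeFactors.filter (fun p : ℕ => p % 4 = 3 ∧
        (X : ℝ) ^ b1 < p ∧ (p : ℝ) ≤ (X : ℝ) ^ (1 / 4 : ℝ))).card :=
      not_lt.1 fun h => n3 (mem_filter.2 ⟨hdI, h⟩)
    have m4 : h ≤ (d.primeFactors.filter (fun p : ℕ => p % 4 = 3 ∧
        (X : ℝ) ^ b2 < p ∧ (p : ℝ) ≤ (X : ℝ) ^ b)).card :=
      not_lt.1 fun h => n4 (mem_filter.2 ⟨hdI, h⟩)
    have m6 : l ^ T * d ≤ X := not_lt.1 fun h => n6 (mem_filter.2 ⟨hdI, h⟩)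
    have hdI' := mem_Icc.1 hdI
    have hXb1 : z ≤ (X : ℝ) ^ b1 :=
      hJ2.trans (Real.rpow_le_rpow_of_exponent_le hXr (hb2'.le.trans hbb1))
    apply hreg
    refine reg_of (B := B) (x := (X : ℝ) ^ b1) (h := h) (k := k) (U := U) hl hl2 (by linarith)
      hRM ?_ hdI'.1 hdI'.2 hsq hodd hOK ?_ m2 ?_ ?_ ?_ m6
    · calc (X : ℝ) = (X : ℝ) ^ (1 : ℝ) := (Real.rpow_one _).symm
        _ < (X : ℝ) ^ (a * ((T + 1 : ℕ) : ℝ)) := by
            refine Real.rpow_lt_rpow_of_exponent_lt ?_ hTa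
            by_contra hc
            have hX1 : (X : ℝ) = 1 := le_antisymm (not_lt.1 hc) hXr
            rw [hX1, Real.one_rpow] at h5
            linarith
        _ = ((X : ℝ) ^ a) ^ (T + 1) := by
            rw [Real.rpow_mul hXr0.le, Real.rpow_natCast]
        _ ≤ z ^ (T + 1) := pow_le_pow_left₀ (by positivity) hJ1 _
    · by_contra hc
      exact m1 ⟨hsq, not_le.1 hc⟩
    · refine m3.trans (card_le_card fun p hp => ?_)
      rw [mem_filter] at hp ⊢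
      exact ⟨hp.1, lt_of_le_of_lt hXb1 hp.2.2.1, hp.2.2.1⟩
    · refine m4.trans (card_le_card fun p hp => ?_)
      rw [mem_filter] at hp ⊢
      exact ⟨hp.1, lt_of_le_of_lt hJ2 hp.2.2.1, hp.2.1,
        hp.2.2.2.trans (Real.rpow_le_rpow_of_exponent_le hXr hbb1)⟩
    · intro p q hp hq hzp hpq hq2 hdvd
      exact n5 (mem_filter.2 ⟨hdI, p, q, hp, hq, lt_of_le_of_lt hJ1 hzp, hpq, hq2, hdvd⟩)
  have hcard : (((DenR r S X).filter (fun d => ¬ RegD S l J T η₁ X d)).card : ℝ) ≤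
      A1.card + (A2.card + (A3.card + (A4.card + (A5.card + A6.card)))) := by
    have h1 := card_le_card hsub
    have h2 : (A1 ∪ (A2 ∪ (A3 ∪ (A4 ∪ (A5 ∪ A6))))).card ≤
        A1.card + (A2.card + (A3.card + (A4.card + (A5.card + A6.card)))) :=
      (card_union_le _ _).trans (Nat.add_le_add_left ((card_union_le _ _).trans
        (Nat.add_le_add_left ((card_union_le _ _).trans (Nat.add_le_add_left
          ((card_union_le _ _).trans (Nat.add_le_add_left (card_union_le _ _) _)) _)) _)) _)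
    exact_mod_cast h1.trans h2
  have : δ * X = 8 * (δ₀ * X) := by rw [hδ₀]; ring
  linarith


/-- **Assembly**: the density theorem in the class `r` modulo `4`, for every bad predicate -/
theorem asmP (P : ℝ → ℝ → ℕ → ℕ → ℕ → Prop) {r : ℕ} (hr : r % 2 = 1) (hTK : StmtTK)
    (hSm : StmtSmooth) (hSa : StmtSame) (hCk : StmtCk) (hEx : ExP P) (S : Sys) (hCell : CellP P S)
    (hRM : S.StmtRM) : DensR r S :=
  densR_of (halfA hr hCell) (halfB hr hTK hSm hSa hCk hEx S hRM)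

end Vale.Agent.P017.R4.H222
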