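import Vale.Agent.P017.R3.H222.AsmB
import Vale.Agent.P017.R3.H420.Asm3

/-!
# P017, even discriminants: assembly, generic in the bad predicate and in the class modulo `4`
-/

open Finset

namespace Vale.Agent.P017.R4.H222

open Vale.Agent.P017.R3
open Vale.Agent.P017.R2.H985 (bit PF Pat sym Mat cork)
open Vale.Agent.P017.R3.H420 (rl ks mem_rl rl_prod smp_mul smp_dvd smp_pf bi_spec bi_eq mem_Bx TT
  sum_TT_cons mem_TT tot_eq cnt_eq all_eq tuple_lt tuple_prime tuple_ks tuple_le prod_struct RegD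
  rl_mem key_tuple sum_fiber_le prod_mod4 eta_le_one)

variable (P : ℝ → ℝ → ℕ → ℕ → ℕ → Prop)

open Classical in
/-- number of tuples in the boxes, each counted with the number of its bad prefixes -/
noncomputable def ExWP (l δ : ℝ) : List (ℕ × ℕ) → ℕ → ℕ
  | [], _ => 0
  | b :: bs, n => (if P l δ b.1 b.2 (Nat.lcm n 15) then All l (b :: bs) else 0) +
      ∑ p ∈ Bx l b.1 b.2, ExWP l δ bs (n * p)

/-- cell estimate -/
def CellP (S : Sys) : Prop := ∀ (l δ : ℝ), 1 < l → 0 < δ → δ < 1 →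
  ∀ (b : ℕ × ℕ) (bs : List (ℕ × ℕ)),
  ((b :: bs).map Prod.fst).Pairwise (· < ·) → (∀ c ∈ b :: bs, c.2 = 1 ∨ c.2 = 3) →
  5 ≤ l ^ b.1 → ∀ n : ℕ, Squarefree n → Odd n → (∀ p ∈ n.primeFactors, (p : ℝ) ≤ l ^ b.1) →
  (1 - δ) ^ (b :: bs).length * (S.f (((b :: bs).dropLast).map (fun c => eps c.2)) n *
      ((All l (b :: bs) : ℝ) / 2 ^ S.fr n)) - ExWP P l δ (b :: bs) n ≤ S.Cnt l (b :: bs) n ∧
  (S.Tot l (b :: bs) n : ℝ) ≤ (1 + δ) * ((All l (b :: bs) : ℝ) / 2 ^ S.fr n) +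
    ExWP P l δ (b :: bs) n

open Classical in
/-- few bad prefixes -/
def ExP : Prop := ∀ l : ℝ, 1 < l → l ≤ 2 → ∀ a δ' δ : ℝ, 0 < a → 0 < δ' → 0 < δ → ∃ X₀ : ℕ,
  ∀ X : ℕ, X₀ ≤ X →
  ∑ d ∈ (Icc 1 X).filter (fun d => Squarefree d ∧ Odd d),
    ((d.primeFactors.filter (fun q : ℕ => (X : ℝ) ^ a < q ∧
      (∀ p ∈ d.primeFactors, p < q → (p : ℝ) ≤ l ^ bi l q) ∧
      P l δ' (bi l q) (q % 4) (Nat.lcm (∏ p ∈ d.primeFactors.filter (· < q), p) 15))).card : ℝ)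
    ≤ δ * X

open Classical in
/-- density, additive form, in the class `r` modulo `4` -/
def DensR (r : ℕ) (S : Sys) : Prop := ∀ η δ : ℝ, η < eta → 0 < δ → ∃ X₀ : ℕ, ∀ X : ℕ, X₀ ≤ X →
  η * ((Icc 1 X).filter (fun d => Squarefree d ∧ d % 4 = r ∧ S.OK d)).card - δ * X ≤
    ((Icc 1 X).filter (fun d => Squarefree d ∧ d % 4 = r ∧ S.OK d ∧ S.Rd d)).card

open Classical in
/-- the denominators -/
noncomputable def DenR (r : ℕ) (S : Sys) (X : ℕ) : Finset ℕ :=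
  (Icc 1 X).filter (fun d => Squarefree d ∧ d % 4 = r ∧ S.OK d)

open Classical in
/-- number of bad prefixes of `d` -/
noncomputable def BadNP (l δ z : ℝ) (d : ℕ) : ℕ :=
  (d.primeFactors.filter (fun q : ℕ => z < q ∧
      (∀ p ∈ d.primeFactors, p < q → (p : ℝ) ≤ l ^ bi l q) ∧
      P l δ (bi l q) (q % 4) (Nat.lcm (∏ p ∈ d.primeFactors.filter (· < q), p) 15))).card

/-- the sum of `ExP` -/
noncomputable def BadSP (l δ z : ℝ) (X : ℕ) : ℝ :=
  ∑ d ∈ (Icc 1 X).filter (fun d => Squarefree d ∧ Odd d), (BadNP P l δ z d : ℝ)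

open Classical in
/-- half (a) -/
def HalfA (r : ℕ) (S : Sys) : Prop := ∀ (l δ η₁ : ℝ) (J T X : ℕ), 1 < l → l ≤ 2 → 0 < δ → δ < 1 →
  0 ≤ η₁ → η₁ ≤ 1 → 5 ≤ l ^ J →
  η₁ * ((1 - δ) ^ T / (1 + δ)) * ((DenR r S X).filter (RegD S l J T η₁ X)).card ≤
    ((DenR r S X).filter S.Rd).card + 2 * BadSP P l δ (l ^ J) X

open Classical in
/-- half (b) -/
def HalfB (r : ℕ) (S : Sys) : Prop := ∀ η₁ δ : ℝ, 0 ≤ η₁ → η₁ < eta → 0 < δ → δ < 1 →
  ∃ (l δ' : ℝ) (T : ℕ), 1 < l ∧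
  l ≤ 2 ∧ 0 < δ' ∧ δ' < 1 ∧ 1 - δ ≤ (1 - δ') ^ T / (1 + δ') ∧ ∃ X₀ : ℕ, ∀ X : ℕ, X₀ ≤ X →
    ∃ J : ℕ, 5 ≤ l ^ J ∧
      (((DenR r S X).filter (fun d => ¬ RegD S l J T η₁ X d)).card : ℝ) ≤ δ * X ∧
      BadSP P l δ' (l ^ J) X ≤ δ * X

variable {P}

/-- assembly of the two halves -/
theorem densR_of {r : ℕ} {S : Sys} (hA : HalfA P r S) (hB : HalfB P r S) : DensR r S := by
  classical
  intro η δ hη hδ
  have hRed : ∀ X : ℕ, ((Icc 1 X).filter (fun d => Squarefree d ∧ d % 4 = r ∧ S.OK d ∧ S.Rd d)) =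
      (DenR r S X).filter S.Rd := by
    intro X
    ext d
    simp only [DenR, mem_filter]
    tauto
  rcases lt_or_ge η 0 with h0 | h0
  · refine ⟨0, fun X _ => ?_⟩
    have h1 : η * (((Icc 1 X).filter (fun d => Squarefree d ∧ d % 4 = r ∧ S.OK d)).card : ℝ) ≤ 0 :=
      mul_nonpos_of_nonpos_of_nonneg h0.le (by positivity)
    have h2 : 0 ≤ δ * (X : ℝ) := by positivity
    have h3 : (0 : ℝ) ≤
        ((Icc 1 X).filter (fun d => Squarefree d ∧ d % 4 = r ∧ S.OK d ∧ S.Rd d)).card := by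
      positivity
    linarith
  have e3 : η ≤ 1 := hη.le.trans eta_le_one
  set δ₁ : ℝ := min (1 / 2) (δ / 4) with hδ₁
  have hδ0 : 0 < δ₁ := lt_min (by norm_num) (by linarith)
  have hδ1 : δ₁ < 1 := lt_of_le_of_lt (min_le_left _ _) (by norm_num)
  have hδ2 : 4 * δ₁ ≤ δ := by
    have := min_le_right (1 / 2 : ℝ) (δ / 4)
    rw [← hδ₁] at this
    linarith
  obtain ⟨l, δ', T, hl1, hl2, hd0, hd1, hT, X₀, hX₀⟩ := hB η δ₁ h0 hη hδ0 hδ1
  refine ⟨X₀, fun X hX => ?_⟩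
  obtain ⟨J, hJ, hirr, hbad⟩ := hX₀ X hX
  have key := hA l δ' η J T X hl1 hl2 hd0 hd1 h0 e3 hJ
  have hNX : ((DenR r S X).card : ℝ) ≤ X := by
    have h1 : (DenR r S X).card ≤ (Icc 1 X).card := card_filter_le _ _
    rw [Nat.card_Icc, Nat.add_sub_cancel] at h1
    exact_mod_cast h1
  have hsplit : ((DenR r S X).card : ℝ) = ((DenR r S X).filter (RegD S l J T η X)).card +
      ((DenR r S X).filter (fun d => ¬ RegD S l J T η X d)).card := by
    rw [← Finset.card_filter_add_card_filter_not (s := DenR r S X) (RegD S l J T η X)]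
    push_cast
    rfl
  have goal' : η * ((DenR r S X).card : ℝ) - δ * X ≤ ((DenR r S X).filter S.Rd).card := by
    set N : ℝ := ((DenR r S X).card : ℝ) with hNN
    set R : ℝ := (((DenR r S X).filter (RegD S l J T η X)).card : ℝ) with hR
    have hR0 : 0 ≤ R := by rw [hR]; positivity
    have hRN : N - δ₁ * X ≤ R := by linarith
    have hX0 : (0 : ℝ) ≤ X := by positivity
    have h1 : η * (1 - δ₁) * R ≤ η * ((1 - δ') ^ T / (1 + δ')) * R :=
      mul_le_mul_of_nonneg_right (mul_le_mul_of_nonneg_left hT h0) hR0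
    have h2 : η * (1 - δ₁) * (N - δ₁ * X) ≤ η * (1 - δ₁) * R :=
      mul_le_mul_of_nonneg_left hRN (mul_nonneg h0 (by linarith))
    have h3 : η * (1 - δ₁) * (δ₁ * X) ≤ δ₁ * X := by
      refine mul_le_of_le_one_left (by positivity) ?_
      calc η * (1 - δ₁) ≤ 1 * 1 := mul_le_mul e3 (by linarith) (by linarith) (by norm_num)
        _ = 1 := by norm_num
    have h4 : η * δ₁ * N ≤ δ₁ * X := by
      have : η * N ≤ 1 * X := mul_le_mul e3 hNX (by rw [hNN]; positivity) (by norm_num)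
      nlinarith
    have h5 : 4 * δ₁ * X ≤ δ * X := mul_le_mul_of_nonneg_right hδ2 hX0
    nlinarith
  have hDen : ((Icc 1 X).filter (fun d => Squarefree d ∧ d % 4 = r ∧ S.OK d)) = DenR r S X := rfl
  rw [hRed, hDen]
  exact goal'

end Vale.Agent.P017.R4.H222
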