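import Vale.Agent.P017.R4.H222.Asm0

/-!
# P017, even discriminants: regular `d`
-/

open Finset

namespace Vale.Agent.P017.R4.H222

open Vale.Agent.P017.R3
open Vale.Agent.P017.R2.H985 (bit PF Pat sym Mat cork)
open Vale.Agent.P017.R3.H420 (rl ks mem_rl rl_prod smp_mul smp_dvd smp_pf bi_spec bi_eq mem_Bx TT
  sum_TT_cons mem_TT tot_eq cnt_eq all_eq tuple_lt tuple_prime tuple_ks tuple_le prod_struct RegD
  rl_mem key_tuple sum_fiber_le prod_mod4 eta_le_one)

variable (P : ℝ → ℝ → ℕ → ℕ → ℕ → Prop)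

open Classical in
/-- number of bad prefixes of a tuple -/
noncomputable def wtP (l δ : ℝ) : List (ℕ × ℕ) → ℕ → List ℕ → ℕ
  | b :: bs, n, p :: ps => (if P l δ b.1 b.2 (Nat.lcm n 15) then 1 else 0) +
      wtP l δ bs (n * p) ps
  | _, _, _ => 0

theorem exwP_eq (l δ : ℝ) : ∀ (bs : List (ℕ × ℕ)) (n : ℕ), ExWP P l δ bs n =
    ∑ ps ∈ TT l bs, wtP P l δ bs n ps
  | [], n => by rw [TT, sum_singleton, ExWP, wtP]; simp
  | b :: bs, n => by
    classical
    rw [sum_TT_cons, ExWP]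
    have : ∀ p ∈ Bx l b.1 b.2, ∑ ps ∈ TT l bs, wtP P l δ (b :: bs) n (p :: ps) =
        (if P l δ b.1 b.2 (Nat.lcm n 15) then All l bs else 0) + ExWP P l δ bs (n * p) := by
      intro p _
      rw [exwP_eq l δ bs (n * p), all_eq]
      simp only [wtP, sum_add_distrib]
      congr 1
      split_ifs <;> simp
    rw [sum_congr rfl this, sum_add_distrib]
    congr 1
    rw [sum_const, smul_eq_mul, All]
    split_ifs <;> simp

variable {P}

section
variable {l : ℝ} (hl : 1 < l)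
include hl

open Classical in
/-- bad prefixes of a tuple and of the integer -/
theorem wtP_eq (δ : ℝ) : ∀ {bs : List (ℕ × ℕ)} {ps : List ℕ} {n : ℕ}, Squarefree n →
    List.Forall₂ (fun p b => p ∈ Bx l b.1 b.2) ps bs → (bs.map Prod.fst).Pairwise (· < ·) →
    (∀ b ∈ bs, ∀ q ∈ n.primeFactors, (q : ℝ) ≤ l ^ b.1) →
    wtP P l δ bs n ps = (ps.map fun q => if P l δ (bi l q) (q % 4)
      (Nat.lcm (∏ p ∈ (n * ps.prod).primeFactors.filter (· < q), p) 15) then 1 else 0).sum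
  | [], _, n, _, h, _, _ => by cases h; simp [wtP]
  | b :: bs, _, n, hn, h, hp, hz => by
    cases h with
    | @cons p _ ps _ h1 h2 =>
      have hkey := key_tuple hl hn (hz b List.mem_cons_self) (List.Forall₂.cons h1 h2) hp
        (fun c hc => by
          rcases List.mem_cons.mp hc with rfl | hc
          · exact le_rfl
          · rw [List.map_cons, List.pairwise_cons] at hp
            exact (hp.1 _ (List.mem_map_of_mem hc)).le)
      have hlt := (tuple_lt hl (List.Forall₂.cons h1 h2) hp).1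
      rw [List.pairwise_cons] at hlt
      rw [List.map_cons, List.pairwise_cons] at hp
      obtain ⟨c1, c2, c3, c4⟩ := (mem_Bx hl).mp h1
      have hpn : ∀ q ∈ n.primeFactors, q < p := fun q hq => by
        have := lt_of_le_of_lt (hz b List.mem_cons_self q hq) c1
        exact_mod_cast this
      obtain ⟨s1, s2⟩ := prod_struct [p] n hn (by simpa using c3) (by simp)
        (by simpa using hpn)
      simp only [List.prod_cons, List.prod_nil, mul_one] at s1 s2
      have ih := wtP_eq δ s1 h2 hp.2 (fun c hc q hq => by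
        rw [s2, mem_union] at hq
        have hbc := hp.1 _ (List.mem_map_of_mem hc)
        rcases hq with hq | hq
        · exact (hz b List.mem_cons_self q hq).trans (pow_le_pow_right₀ hl.le hbc.le)
        · simp only [List.mem_toFinset, List.mem_singleton] at hq
          rw [hq]
          exact c2.trans (pow_le_pow_right₀ hl.le hbc))
      rw [wtP, ih, List.map_cons, List.sum_cons, List.prod_cons, mul_assoc]
      congr 1
      have hb : bi l p = b.1 := bi_eq hl c1 c2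
      have hprod : ∏ q ∈ (n * (p * ps.prod)).primeFactors.filter (· < p), q = n := by
        have hf : (n * (p * ps.prod)).primeFactors.filter (· < p) = n.primeFactors := by
          have := hkey.2.1
          rw [List.prod_cons] at this
          rw [this]
          ext q
          simp only [mem_filter, mem_union, List.mem_toFinset, List.mem_cons]
          constructor
          · rintro ⟨h | h | h, h'⟩
            · exact h
            · omega
            · have := hlt.1 q h; omega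
          · exact fun h => ⟨Or.inl h, hpn q h⟩
        rw [hf]
        exact Nat.prod_primeFactors_of_squarefree hn
      rw [hprod, hb, c4]

theorem wtP_le (δ : ℝ) {J m : ℕ} (hm : Squarefree m)
    (hmz : ∀ q ∈ m.primeFactors, (q : ℝ) ≤ l ^ J)
    {bs : List (ℕ × ℕ)} {ps : List ℕ} (h : List.Forall₂ (fun p b => p ∈ Bx l b.1 b.2) ps bs)
    (hbs : (bs.map Prod.fst).Pairwise (· < ·)) (hJ : ∀ b ∈ bs, J ≤ b.1) :
    wtP P l δ bs m ps ≤ BadNP P l δ (l ^ J) (m * ps.prod) := by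
  classical
  obtain ⟨k1, k2, k3, k4, k5⟩ := key_tuple hl hm hmz h hbs hJ
  obtain ⟨h1, h2⟩ := tuple_lt hl h hbs
  have h3 := h2 J hJ
  rw [wtP_eq hl δ hm h hbs (fun b hb q hq => (hmz q hq).trans (pow_le_pow_right₀ hl.le (hJ b hb))),
    ← List.sum_toFinset _ (h1.imp (fun h => h.ne)), ← card_filter]
  unfold BadNP
  refine card_le_card fun q hq => ?_
  rw [mem_filter, List.mem_toFinset] at hq
  rw [mem_filter]
  refine ⟨?_, h3 q hq.1, ?_, hq.2⟩
  · rw [k2, mem_union, List.mem_toFinset]; exact Or.inr hq.1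
  · intro p hp hpq
    have hqb := bi_spec hl (tuple_prime hl h q hq.1).one_lt
    rw [k2, mem_union, List.mem_toFinset] at hp
    rcases hp with hp | hp
    · refine (hmz p hp).trans (pow_le_pow_right₀ hl.le ?_)
      have : l ^ J < l ^ (bi l q + 1) := lt_of_lt_of_le (h3 q hq.1) hqb.2
      have := (pow_lt_pow_iff_right₀ hl).mp this
      omega
    · -- the boxes of `p < q` are distinct
      have hpb := bi_spec hl (tuple_prime hl h p hp).one_lt
      have hbox : bi l p < bi l q := by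
        have e1 : (ps.map (bi l)).Pairwise (· < ·) := by
          have : ps.map (bi l) = bs.map Prod.fst := by
            rw [← tuple_ks hl h, List.map_map]
            rfl
          rw [this]; exact hbs
        rw [List.pairwise_map] at e1
        have e2 := (h1.and e1)
        have e3 : ps.Pairwise (fun a b => a < b → bi l a < bi l b) :=
          e2.imp (fun h _ => h.2)
        by_contra hcon
        rw [not_lt] at hcon
        -- compare the positions
        rcases List.pairwise_iff_getElem.mp e1 with e4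
        obtain ⟨i, hi, rfl⟩ := List.getElem_of_mem hp
        obtain ⟨j, hj, rfl⟩ := List.getElem_of_mem hq.1
        rcases lt_trichotomy i j with hij | hij | hij
        · exact absurd (e4 i j hi hj hij) (not_lt.mpr hcon)
        · subst hij; omega
        · have := List.pairwise_iff_getElem.mp h1 j i hj hi hij
          omega
      exact hpb.2.trans (pow_le_pow_right₀ hl.le hbox)

end

/-- the inequality in one cell -/
theorem cell_ineq {S : Sys} {l δ η₁ : ℝ} {T : ℕ} (hl : 1 < l) (h0 : 0 < δ) (h1 : δ < 1) (he : 0 ≤ η₁)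
    (he1 : η₁ ≤ 1) (hC : CellP P S) {bs : List (ℕ × ℕ)} {m : ℕ} (hne : bs ≠ [])
    (hbs : (bs.map Prod.fst).Pairwise (· < ·)) (hc : ∀ c ∈ bs, c.2 = 1 ∨ c.2 = 3)
    (h5 : ∀ b ∈ bs, 5 ≤ l ^ b.1) (hm : Squarefree m) (hmo : Odd m)
    (hmz : ∀ b ∈ bs, ∀ p ∈ m.primeFactors, (p : ℝ) ≤ l ^ b.1) (hT : bs.length ≤ T)
    (hF : η₁ ≤ S.f (bs.dropLast.map (fun c => eps c.2)) m) :
    η₁ * ((1 - δ) ^ T / (1 + δ)) * (S.Tot l bs m : ℝ) ≤
      (S.Cnt l bs m : ℝ) + 2 * (ExWP P l δ bs m : ℝ) := by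
  obtain ⟨b, bs, rfl⟩ := List.exists_cons_of_ne_nil hne
  obtain ⟨c1, c2⟩ := hC l δ hl h0 h1 b bs hbs hc (h5 b List.mem_cons_self) m hm hmo
    (hmz b List.mem_cons_self)
  set A : ℝ := (All l (b :: bs) : ℝ) / 2 ^ S.fr m with hA
  set F : ℝ := S.f ((b :: bs).dropLast.map (fun c => eps c.2)) m with hF'
  set E : ℝ := (ExWP P l δ (b :: bs) m : ℝ) with hE
  have hA0 : 0 ≤ A := by rw [hA]; positivity
  have hE0 : 0 ≤ E := by rw [hE]; positivity
  have hd : (0 : ℝ) < 1 - δ := by linarith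
  have hp : (1 - δ) ^ T ≤ (1 - δ) ^ (b :: bs).length := pow_le_pow_of_le_one hd.le (by linarith) hT
  have hpT0 : 0 ≤ (1 - δ) ^ T := by positivity
  have hpT1 : (1 - δ) ^ T ≤ 1 := pow_le_one₀ hd.le (by linarith)
  set c₀ : ℝ := η₁ * ((1 - δ) ^ T / (1 + δ)) with hc₀
  have hc0 : 0 ≤ c₀ := by rw [hc₀]; positivity
  have hc1 : c₀ ≤ 1 := by
    rw [hc₀]
    have : (1 - δ) ^ T / (1 + δ) ≤ 1 := by
      rw [div_le_one (by linarith)]; linarith
    calc η₁ * ((1 - δ) ^ T / (1 + δ)) ≤ 1 * 1 := mul_le_mul he1 this (by positivity) (by norm_num)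
      _ = 1 := by norm_num
  have k1 : c₀ * (S.Tot l (b :: bs) m : ℝ) ≤ c₀ * ((1 + δ) * A + E) :=
    mul_le_mul_of_nonneg_left c2 hc0
  have k2 : c₀ * ((1 + δ) * A + E) = η₁ * (1 - δ) ^ T * A + c₀ * E := by
    rw [hc₀]; field_simp
  have k3 : η₁ * (1 - δ) ^ T * A ≤ (1 - δ) ^ (b :: bs).length * (F * A) := by
    have : η₁ * (1 - δ) ^ T ≤ F * (1 - δ) ^ (b :: bs).length :=
      mul_le_mul hF hp hpT0 (he.trans hF)
    calc η₁ * (1 - δ) ^ T * A ≤ F * (1 - δ) ^ (b :: bs).length * A :=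
          mul_le_mul_of_nonneg_right this hA0
      _ = _ := by ring
  have k4 : c₀ * E ≤ E := mul_le_of_le_one_left hE0 hc1
  linarith

theorem halfA {r : ℕ} (hr : r % 2 = 1) {S : Sys} (hC : CellP P S) : HalfA P r S := by
  classical
  intro l δ η₁ J T X hl hl2 h0 h1 he he1 h5
  set z : ℝ := l ^ J with hz
  set Reg : Finset ℕ := (DenR r S X).filter (RegD S l J T η₁ X) with hReg
  set Red : Finset ℕ := (DenR r S X).filter S.Rd with hRed
  set Od : Finset ℕ := (Icc 1 X).filter (fun d => Squarefree d ∧ Odd d) with hOd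
  let key : ℕ → ℕ × List (ℕ × ℕ) := fun d => (smp z d, ks l z d)
  set 𝒦 : Finset (ℕ × List (ℕ × ℕ)) := Reg.image key with h𝒦
  -- properties of the keys
  have hprop : ∀ κ ∈ 𝒦, Squarefree κ.1 ∧ Odd κ.1 ∧ (∀ q ∈ κ.1.primeFactors, (q : ℝ) ≤ z) ∧
      κ.2 ≠ [] ∧ (κ.2.map Prod.fst).Pairwise (· < ·) ∧ (∀ c ∈ κ.2, c.2 = 1 ∨ c.2 = 3) ∧
      (∀ c ∈ κ.2, J ≤ c.1) ∧ κ.2.length ≤ T ∧
      η₁ ≤ S.f (κ.2.dropLast.map (fun c => eps c.2)) κ.1 ∧
      (κ.1 : ℝ) * (κ.2.map (fun b => l ^ (b.1 + 1))).prod ≤ X ∧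
      (∀ ps : List ℕ, List.Forall₂ (fun p b => p ∈ Bx l b.1 b.2) ps κ.2 →
        (κ.1 * ps.prod) % 4 = r) := by
    intro κ hκ
    rw [h𝒦, mem_image] at hκ
    obtain ⟨d, hd, rfl⟩ := hκ
    rw [hReg, mem_filter, DenR, mem_filter] at hd
    obtain ⟨⟨hd1, hd2, hd3, hd4⟩, hR⟩ := hd
    have hodd : Odd d := by rw [Nat.odd_iff]; omega
    refine ⟨hd2.squarefree_of_dvd (smp_dvd hd2), hodd.of_dvd_nat (smp_dvd hd2),
      fun q hq => smp_pf hq, hR.ne, hR.box, ?_, ?_, hR.len, hR.ff, hR.up, ?_⟩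
    · intro c hc
      simp only [key, ks, List.mem_map] at hc
      obtain ⟨p, hp, rfl⟩ := hc
      have hpd := (mem_rl.mp hp).1
      have : Odd p := hodd.of_dvd_nat (Nat.dvd_of_mem_primeFactors hpd)
      rw [Nat.odd_iff] at this
      show p % 4 = 1 ∨ p % 4 = 3
      omega
    · intro c hc
      simp only [key, ks, List.mem_map] at hc
      obtain ⟨p, hp, rfl⟩ := hc
      obtain ⟨hpd, hpz⟩ := mem_rl.mp hp
      have := (bi_spec hl (Nat.prime_of_mem_primeFactors hpd).one_lt).2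
      have h2 : l ^ J < l ^ (bi l p + 1) := lt_of_lt_of_le hpz this
      have := (pow_lt_pow_iff_right₀ hl).mp h2
      show J ≤ bi l p
      omega
    · intro ps hps
      have e1 : ps.map (fun p => p % 4) = (rl z d).map (fun p => p % 4) := by
        have a1 := tuple_ks hl hps
        have a2 : (rl z d).map (fun p => (bi l p, p % 4)) = ks l z d := rfl
        have a3 : ps.map (fun p => (bi l p, p % 4)) =
            (rl z d).map (fun p => (bi l p, p % 4)) := by rw [a1, a2]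
        have a4 := congrArg (List.map Prod.snd) a3
        simpa [List.map_map, Function.comp_def] using a4
      show (smp z d * ps.prod) % 4 = r
      rw [Nat.mul_mod, prod_mod4 e1, ← Nat.mul_mod, smp_mul hd2]
      exact hd3
  -- every regular `d` is counted
  have hTot : (Reg.card : ℝ) ≤ ∑ κ ∈ 𝒦, (S.Tot l κ.2 κ.1 : ℝ) := by
    have : Reg.card = ∑ κ ∈ 𝒦, (Reg.filter (fun d => key d = κ)).card := by
      rw [h𝒦]; exact card_eq_sum_card_image key Reg
    rw [this]
    push_cast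
    refine sum_le_sum fun κ hκ => ?_
    rw [tot_eq]
    norm_cast
    refine card_le_card_of_injOn (fun d => rl z d) ?_ ?_
    · intro d hd
      rw [Finset.mem_coe, mem_filter, hReg, mem_filter, DenR, mem_filter] at hd
      obtain ⟨⟨⟨-, hd2, hd3, hd4⟩, -⟩, rfl⟩ := hd
      rw [Finset.mem_coe, mem_filter]
      refine ⟨(mem_TT _ _).mpr (rl_mem hl), ?_⟩
      show S.OK (smp z d * (rl z d).prod)
      rw [smp_mul hd2]; exact hd4
    · intro d hd d' hd' hdd
      rw [Finset.mem_coe, mem_filter, hReg, mem_filter, DenR, mem_filter] at hd hd'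
      obtain ⟨⟨⟨-, hd2, -, -⟩, -⟩, hk⟩ := hd
      obtain ⟨⟨⟨-, hd2', -, -⟩, -⟩, hk'⟩ := hd'
      have e1 : smp z d = κ.1 := congrArg Prod.fst hk
      have e2 : smp z d' = κ.1 := congrArg Prod.fst hk'
      have e3 : rl z d = rl z d' := hdd
      rw [← smp_mul (z := z) hd2, ← smp_mul (z := z) hd2', e1, e2, e3]
  -- properties of the integers of a cell
  have hcell : ∀ κ ∈ 𝒦, ∀ ps ∈ TT l κ.2, Squarefree (κ.1 * ps.prod) ∧
      (κ.1 * ps.prod) % 4 = r ∧ κ.1 * ps.prod ∈ Icc 1 X ∧ rl z (κ.1 * ps.prod) = ps ∧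
      key (κ.1 * ps.prod) = κ := by
    intro κ hκ ps hps
    obtain ⟨p1, p2, p3, p4, p5, p6, p7, p8, p9, p10, p11⟩ := hprop κ hκ
    have hF := (mem_TT _ _).mp hps
    obtain ⟨k1, k2, k3, k4, k5⟩ := key_tuple hl p1 p3 hF p5 p7
    refine ⟨k1, p11 ps hF, ?_, k3, ?_⟩
    · rw [mem_Icc]
      refine ⟨Nat.one_le_iff_ne_zero.mpr k1.ne_zero, ?_⟩
      have : ((κ.1 * ps.prod : ℕ) : ℝ) ≤ X := by
        rw [Nat.cast_mul]
        exact (mul_le_mul_of_nonneg_left (tuple_le hl hF) (by positivity)).trans p10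
      exact_mod_cast this
    · show (smp z _, ks l z _) = κ
      rw [k4, k5]
  have hCnt : ∑ κ ∈ 𝒦, (S.Cnt l κ.2 κ.1 : ℝ) ≤ Red.card := by
    have h2 : ∑ κ ∈ 𝒦, S.Cnt l κ.2 κ.1 ≤
        ∑ κ ∈ 𝒦, ∑ d ∈ Red.filter (fun d => key d = κ), 1 := by
      refine sum_le_sum fun κ hκ => ?_
      rw [cnt_eq, ← card_eq_sum_ones]
      refine card_le_card_of_injOn (fun ps => κ.1 * ps.prod) ?_ ?_
      · intro ps hps
        rw [Finset.mem_coe, mem_filter] at hps
        obtain ⟨a1, a2, a3⟩ := hps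
        obtain ⟨c1, c2, c3, c4, c5⟩ := hcell κ hκ ps a1
        rw [Finset.mem_coe, mem_filter, hRed, mem_filter, DenR, mem_filter]
        exact ⟨⟨⟨c3, c1, c2, a2⟩, a3⟩, c5⟩
      · intro ps hps qs hqs h
        rw [Finset.mem_coe, mem_filter] at hps hqs
        have h' : κ.1 * ps.prod = κ.1 * qs.prod := h
        rw [← (hcell κ hκ ps hps.1).2.2.2.1, ← (hcell κ hκ qs hqs.1).2.2.2.1, h']
    have h3 := h2.trans (sum_fiber_le Red 𝒦 key (fun _ => 1))
    rw [← card_eq_sum_ones] at h3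
    exact_mod_cast h3
  have hEx : ∑ κ ∈ 𝒦, (ExWP P l δ κ.2 κ.1 : ℝ) ≤ BadSP P l δ z X := by
    have h2 : ∑ κ ∈ 𝒦, ExWP P l δ κ.2 κ.1 ≤
        ∑ κ ∈ 𝒦, ∑ d ∈ Od.filter (fun d => key d = κ), BadNP P l δ z d := by
      refine sum_le_sum fun κ hκ => ?_
      obtain ⟨p1, p2, p3, p4, p5, p6, p7, p8, p9, p10, p11⟩ := hprop κ hκ
      rw [exwP_eq]
      calc ∑ ps ∈ TT l κ.2, wtP P l δ κ.2 κ.1 ps
          ≤ ∑ ps ∈ TT l κ.2, BadNP P l δ z (κ.1 * ps.prod) :=
            sum_le_sum fun ps hps => wtP_le hl δ p1 p3 ((mem_TT _ _).mp hps) p5 p7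
        _ = ∑ d ∈ (TT l κ.2).image (fun ps => κ.1 * ps.prod), BadNP P l δ z d := by
            rw [sum_image]
            intro ps hps qs hqs h
            have h' : κ.1 * ps.prod = κ.1 * qs.prod := h
            rw [← (hcell κ hκ ps hps).2.2.2.1, ← (hcell κ hκ qs hqs).2.2.2.1, h']
        _ ≤ _ := by
            refine sum_le_sum_of_subset fun d hd => ?_
            rw [mem_image] at hd
            obtain ⟨ps, hps, rfl⟩ := hd
            obtain ⟨c1, c2, c3, c4, c5⟩ := hcell κ hκ ps hps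
            rw [mem_filter, hOd, mem_filter]
            refine ⟨⟨c3, c1, ?_⟩, c5⟩
            rw [Nat.odd_iff]; omega
    have h3 := h2.trans (sum_fiber_le Od 𝒦 key (fun d => BadNP P l δ z d))
    unfold BadSP
    have h4 : ((∑ κ ∈ 𝒦, ExWP P l δ κ.2 κ.1 : ℕ) : ℝ) ≤ ((∑ d ∈ Od, BadNP P l δ z d : ℕ) : ℝ) := by
      exact_mod_cast h3
    push_cast at h4
    refine h4.trans (le_of_eq ?_)
    rw [hOd]
  have hsum : η₁ * ((1 - δ) ^ T / (1 + δ)) * ∑ κ ∈ 𝒦, (S.Tot l κ.2 κ.1 : ℝ) ≤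
      ∑ κ ∈ 𝒦, (S.Cnt l κ.2 κ.1 : ℝ) + 2 * ∑ κ ∈ 𝒦, (ExWP P l δ κ.2 κ.1 : ℝ) := by
    rw [mul_sum, mul_sum, ← sum_add_distrib]
    refine sum_le_sum fun κ hκ => ?_
    obtain ⟨p1, p2, p3, p4, p5, p6, p7, p8, p9, p10, p11⟩ := hprop κ hκ
    exact cell_ineq hl h0 h1 he he1 hC p4 p5 p6
      (fun b hb => h5.trans (pow_le_pow_right₀ hl.le (p7 b hb))) p1 p2
      (fun b hb p hp => (p3 p hp).trans (pow_le_pow_right₀ hl.le (p7 b hb))) p8 p9
  have hc0 : 0 ≤ η₁ * ((1 - δ) ^ T / (1 + δ)) := by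
    have : (0 : ℝ) < 1 - δ := by linarith
    positivity
  calc η₁ * ((1 - δ) ^ T / (1 + δ)) * (Reg.card : ℝ)
      ≤ η₁ * ((1 - δ) ^ T / (1 + δ)) * ∑ κ ∈ 𝒦, (S.Tot l κ.2 κ.1 : ℝ) :=
        mul_le_mul_of_nonneg_left hTot hc0
    _ ≤ _ := hsum
    _ ≤ (Red.card : ℝ) + 2 * BadSP P l δ z X := by linarith


end Vale.Agent.P017.R4.H222
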