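import Vale.Agent.P017.R4.Defs
import Vale.Agent.P017.R4.H222.Asm

/-!
# P017, even discriminants (C5)
-/

open Finset

namespace Vale.Agent.P017.R4.H222

open Vale.Agent.P017.R3
open Vale.Agent.P017.R4

theorem exW8_eq (l δ : ℝ) : ∀ (bs : List (ℕ × ℕ)) (n : ℕ), ExW8 l δ bs n = ExWP Bad8 l δ bs n
  | [], n => by rw [ExW8, ExWP]
  | b :: bs, n => by
    classical
    rw [ExW8, ExWP]
    congr 1
    exact sum_congr rfl fun p _ => exW8_eq l δ bs (n * p)

theorem stmtAsmGen8 : StmtAsmGen8 := by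
  intro hTK hSm hSa hCk hEx S _ hCell hRM r hr
  have hr' : r % 2 = 1 := by omega
  refine asmP Bad8 hr' hTK hSm hSa hCk hEx S ?_ hRM
  intro l δ h1 h2 h3 b bs h4 h5 h6 n h7 h8 h9
  have := hCell l δ h1 h2 h3 b bs h4 h5 h6 n h7 h8 h9
  rw [exW8_eq] at this
  exact this

end Vale.Agent.P017.R4.H222
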