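import Vale.Agent.P017.R4.Defs
import Vale.Agent.P017.R3.H101.Ex

/-!
# P017, row C3: few bad prefixes (symbols together with `(2/p)`)
-/

namespace Vale.Agent.P017.R4.H222

open Finset
open Vale.Agent.P017.R3
open Vale.Agent.P017.R3.H101 (recip rough lo hi lo_mul_hi pf_lo pf_hi card_le_lcm bi_spec)
open Vale.Agent.P017.R2.H985 (PF Pat sym)

/-! ### Counting for a fixed prime and a fixed rough part -/

open Classical in
lemma count_one {l : ℝ} (hl : 1 < l) {a δ' ε : ℝ} (ha : 0 < a) (hε : 0 < ε) {A : ℕ}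
    (hA : 2 / a ≤ (A : ℝ)) {j₀ : ℕ}
    (hB : ∀ j : ℕ, j₀ ≤ j → ∀ e : ℕ, (e = 1 ∨ e = 3) → ∀ Z : ℕ, (Z : ℝ) ≤ l ^ ((A + 1) * j) →
      (((Icc 1 Z).filter (fun n => Squarefree n ∧ Odd n ∧
      (∀ p : ℕ, p ∈ n.primeFactors → (p : ℝ) ≤ l ^ j) ∧ Bad8 l δ' j e n)).card : ℝ) ≤ ε * Z)
    {J : ℕ} (hJ : j₀ ≤ J) (hJ1 : 1 ≤ J) (hJ15 : 15 ≤ l ^ J) {X : ℕ} (hX : l ^ (J + 1) ≤ (X : ℝ) ^ a)
    {q : ℕ} (hq : q.Prime) (hqo : Odd q) (hXq : (X : ℝ) ^ a < q) {e : ℕ} :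
    (((Icc 1 (X / (q * e))).filter (fun m => Squarefree m ∧ Odd m ∧
      (∀ p : ℕ, p ∈ m.primeFactors → (p : ℝ) ≤ l ^ bi l q) ∧
      Bad8 l δ' (bi l q) (q % 4) (Nat.lcm m 15))).card : ℝ) ≤ 60 * ε * X * (1 / q * (1 / e)) := by
  obtain ⟨hb1, hb2⟩ := bi_spec hl hq.two_le
  set j := bi l q with hj
  have hl0 : 0 < l := by linarith
  have hjJ : J ≤ j := by
    have h1 : l ^ (J + 1) < l ^ (j + 1) := by linarith
    have := (pow_lt_pow_iff_right₀ hl).mp h1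
    omega
  have h15 : 15 ≤ l ^ j := hJ15.trans (pow_le_pow_right₀ hl.le hjJ)
  have hXj : (X : ℝ) ≤ l ^ (A * j) := by
    have h1 : (X : ℝ) ^ a < (l ^ (A * j) : ℝ) ^ a := by
      calc (X : ℝ) ^ a < q := hXq
        _ ≤ l ^ (j + 1) := hb2
        _ ≤ l ^ (2 * j) := pow_le_pow_right₀ hl.le (by omega)
        _ = l ^ ((2 * j : ℕ) : ℝ) := (Real.rpow_natCast _ _).symm
        _ ≤ l ^ (((A * j : ℕ) : ℝ) * a) := by
            refine Real.rpow_le_rpow_of_exponent_le hl.le ?_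
            push_cast
            rw [div_le_iff₀ ha] at hA
            have : (0 : ℝ) ≤ j := Nat.cast_nonneg _
            nlinarith
        _ = (l ^ (A * j) : ℝ) ^ a := by rw [Real.rpow_mul hl0.le, Real.rpow_natCast]
    exact ((Real.rpow_lt_rpow_iff (Nat.cast_nonneg _) (by positivity) ha).mp h1).le
  have hq4 : q % 4 = 1 ∨ q % 4 = 3 := by
    rw [Nat.odd_iff] at hqo
    omega
  set Z : ℕ := 15 * (X / (q * e)) with hZ
  have hZ1 : (Z : ℝ) ≤ 15 * (X : ℝ) * (1 / q * (1 / e)) := by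
    rw [hZ]
    push_cast
    have h1 : ((X / (q * e) : ℕ) : ℝ) ≤ (X : ℝ) / ((q * e : ℕ) : ℝ) := Nat.cast_div_le
    push_cast at h1
    calc 15 * ((X / (q * e) : ℕ) : ℝ) ≤ 15 * ((X : ℝ) / (q * e)) := by linarith
      _ = 15 * (X : ℝ) * (1 / q * (1 / e)) := by
        rw [one_div_mul_one_div, mul_one_div, mul_div_assoc]
  have hZ2 : (Z : ℝ) ≤ l ^ ((A + 1) * j) := by
    have h1 : X / (q * e) ≤ X := Nat.div_le_self _ _
    have h2 : (Z : ℝ) ≤ 15 * X := by rw [hZ]; exact_mod_cast Nat.mul_le_mul_left 15 h1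
    calc (Z : ℝ) ≤ 15 * X := h2
      _ ≤ l ^ j * l ^ (A * j) := by gcongr
      _ = l ^ ((A + 1) * j) := by rw [← pow_add]; congr 1; ring
  have h1 := hB j (hJ.trans hjJ) (q % 4) hq4 Z hZ2
  have h2 := card_le_lcm ((Icc 1 (X / (q * e))).filter (fun m => Squarefree m ∧ Odd m ∧
      (∀ p : ℕ, p ∈ m.primeFactors → (p : ℝ) ≤ l ^ j) ∧
      Bad8 l δ' j (q % 4) (Nat.lcm m 15))) ((Icc 1 Z).filter (fun n => Squarefree n ∧ Odd n ∧
      (∀ p : ℕ, p ∈ n.primeFactors → (p : ℝ) ≤ l ^ j) ∧ Bad8 l δ' j (q % 4) n)) (by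
    intro m hm
    rw [mem_filter, mem_Icc] at hm ⊢
    obtain ⟨⟨hm1, hm2⟩, hm3, hm4, hm5, hm6⟩ := hm
    have hm0 : m ≠ 0 := by omega
    have hlcm0 : Nat.lcm m 15 ≠ 0 := Nat.lcm_ne_zero hm0 (by norm_num)
    refine ⟨⟨Nat.pos_of_ne_zero hlcm0, ?_⟩, ?_, ?_, ?_, hm6⟩
    · rw [hZ]
      calc Nat.lcm m 15 ≤ m * 15 := Nat.le_of_dvd (by omega) (Nat.lcm_dvd_mul m 15)
        _ ≤ 15 * (X / (q * e)) := by omega
    · have hp15 : Squarefree 15 := by
        rw [show 15 = 3 * 5 by norm_num, Nat.squarefree_mul (by norm_num)]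
        exact ⟨Nat.prime_three.prime.squarefree, Nat.prime_five.prime.squarefree⟩
      rw [Nat.squarefree_iff_factorization_le_one hlcm0]
      rw [Nat.squarefree_iff_factorization_le_one hm0] at hm3
      rw [Nat.squarefree_iff_factorization_le_one (by norm_num)] at hp15
      intro p
      rw [Nat.factorization_lcm hm0 (by norm_num), Finsupp.sup_apply]
      exact sup_le (hm3 p) (hp15 p)
    · rw [← Nat.not_even_iff_odd, even_iff_two_dvd]
      intro h2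
      have h3 : 2 ∣ m * 15 := h2.trans (Nat.lcm_dvd_mul m 15)
      rw [Nat.odd_iff] at hm4
      omega
    · intro p hp
      have hpp := Nat.prime_of_mem_primeFactors hp
      have hpd : p ∣ m * 15 := (Nat.dvd_of_mem_primeFactors hp).trans (Nat.lcm_dvd_mul m 15)
      rcases hpp.dvd_mul.mp hpd with hp | hp
      · exact hm5 p (Nat.mem_primeFactors.mpr ⟨hpp, hp, hm0⟩)
      · have : p ≤ 15 := Nat.le_of_dvd (by norm_num) hp
        have : (p : ℝ) ≤ 15 := by exact_mod_cast this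
        linarith)
  have h3 : ((4 * ((Icc 1 Z).filter (fun n => Squarefree n ∧ Odd n ∧
      (∀ p : ℕ, p ∈ n.primeFactors → (p : ℝ) ≤ l ^ j) ∧ Bad8 l δ' j (q % 4) n)).card : ℕ) : ℝ) ≤
      4 * (ε * Z) := by push_cast; linarith
  refine (Nat.cast_le.mpr h2).trans (h3.trans ?_)
  have h4 : ε * (Z : ℝ) ≤ ε * (15 * (X : ℝ) * (1 / q * (1 / e))) :=
    mul_le_mul_of_nonneg_left hZ1 hε.le
  linarith

/-- **(C3)**, copy of `R3.H101.stmtEx` for the symbols together with `(2/p)` -/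
theorem stmtEx8 (hBad : StmtBad8) : StmtEx8 := by
  classical
  intro l hl hl2 a δ' δ ha hδ' hδ
  obtain ⟨C₁, hC₁, X₁, h₁⟩ := recip a ha
  obtain ⟨C₂, hC₂, X₂, h₂⟩ := rough a ha
  set A : ℕ := ⌈2 / a⌉₊ with hA
  set ε : ℝ := δ / (60 * C₁ * C₂) with hε
  have hε0 : 0 < ε := by positivity
  obtain ⟨j₀, hj₀⟩ := hBad l hl hl2 (A + 1) δ' ε hδ' hε0
  have hl0 : 0 < l := by linarith
  obtain ⟨J₁, hJ₁⟩ := pow_unbounded_of_one_lt (15 : ℝ) hl
  set J : ℕ := max j₀ (max 1 J₁) with hJ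
  have hJ15 : 15 ≤ l ^ J := hJ₁.le.trans (pow_le_pow_right₀ hl.le (by omega))
  obtain ⟨X₃, hX₃⟩ := exists_nat_ge ((l ^ (J + 1)) ^ (1 / a) : ℝ)
  refine ⟨max X₁ (max X₂ (max X₃ 1)), fun X hX => ?_⟩
  have hXX : l ^ (J + 1) ≤ (X : ℝ) ^ a := by
    have h3 : (X₃ : ℝ) ≤ X := by exact_mod_cast (by omega : X₃ ≤ X)
    have h4 := Real.rpow_le_rpow (by positivity) (hX₃.trans h3) ha.le
    rwa [← Real.rpow_mul (by positivity), one_div, inv_mul_cancel₀ ha.ne', Real.rpow_one] at h4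
  set P := (Icc 1 X).filter (fun p : ℕ => p.Prime ∧ (X : ℝ) ^ a < p) with hP
  set E := (Icc 1 X).filter (fun e : ℕ => Squarefree e ∧ ∀ p ∈ e.primeFactors, (X : ℝ) ^ a < p)
    with hE
  set M : ℕ × ℕ → Finset ℕ := fun t => (Icc 1 (X / (t.1 * t.2))).filter (fun m => Squarefree m ∧
      Odd m ∧ (∀ p : ℕ, p ∈ m.primeFactors → (p : ℝ) ≤ l ^ bi l t.1) ∧
      Bad8 l δ' (bi l t.1) (t.1 % 4) (Nat.lcm m 15)) with hM
  set D := (Icc 1 X).filter (fun d => Squarefree d ∧ Odd d) with hD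
  set Q : ℕ → Finset ℕ := fun d => d.primeFactors.filter (fun q : ℕ => (X : ℝ) ^ a < q ∧
      (∀ p ∈ d.primeFactors, p < q → (p : ℝ) ≤ l ^ bi l q) ∧
      Bad8 l δ' (bi l q) (q % 4) (Nat.lcm (∏ p ∈ d.primeFactors.filter (· < q), p) 15)) with hQ
  have hmain : (D.sigma Q).card ≤ (((P.filter Odd) ×ˢ E).sigma M).card := by
    refine card_le_card_of_injOn (fun t => (⟨(t.2, hi t.1 t.2), lo t.1 t.2⟩ : Σ _ : ℕ × ℕ, ℕ))
      ?_ ?_
    · rintro ⟨d, q⟩ hdq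
      rw [mem_coe, mem_sigma] at hdq
      obtain ⟨hd, hq⟩ := hdq
      simp only [hD, hQ, mem_filter, mem_Icc] at hd hq
      obtain ⟨⟨hd1, hd2⟩, hd3, hd4⟩ := hd
      obtain ⟨hq1, hq2, hq3, hq4⟩ := hq
      have hsp := lo_mul_hi hd3 hq1
      have hqp := Nat.prime_of_mem_primeFactors hq1
      have hlo : lo d q ≠ 0 := fun h => by rw [h] at hsp; omega
      have hhi : hi d q ≠ 0 := fun h => by rw [h] at hsp; omega
      have hlod : lo d q ∣ d := ⟨q * hi d q, by rw [← mul_assoc]; exact hsp.symm⟩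
      have hhid : hi d q ∣ d := ⟨lo d q * q, by rw [mul_comm]; exact hsp.symm⟩
      have hqd := Nat.dvd_of_mem_primeFactors hq1
      simp only [mem_coe, mem_sigma, mem_product, hP, hE, hM, mem_filter, mem_Icc]
      refine ⟨⟨⟨⟨⟨hqp.one_lt.le, ?_⟩, hqp, hq2⟩, ?_⟩, ⟨Nat.pos_of_ne_zero hhi, ?_⟩, ?_, ?_⟩,
        ⟨Nat.pos_of_ne_zero hlo, ?_⟩, ?_, ?_, ?_, hq4⟩
      · exact (Nat.le_of_dvd hd1 hqd).trans hd2
      · exact hd4.of_dvd_nat hqd
      · exact (Nat.le_of_dvd hd1 hhid).trans hd2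
      · exact hd3.squarefree_of_dvd hhid
      · intro p hp
        rw [pf_hi, mem_filter] at hp
        have : (q : ℝ) < p := by exact_mod_cast hp.2
        linarith
      · rw [Nat.le_div_iff_mul_le (Nat.mul_pos hqp.pos (Nat.pos_of_ne_zero hhi)), ← mul_assoc, hsp]
        exact hd2
      · exact hd3.squarefree_of_dvd hlod
      · exact hd4.of_dvd_nat hlod
      · intro p hp
        rw [pf_lo, mem_filter] at hp
        exact hq3 p hp.1 hp.2
    · rintro ⟨d, q⟩ hdq ⟨d', q'⟩ hdq' h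
      rw [mem_coe, mem_sigma] at hdq hdq'
      have hsp := lo_mul_hi (mem_filter.mp hdq.1).2.1 (mem_filter.mp hdq.2).1
      have hsp' := lo_mul_hi (mem_filter.mp hdq'.1).2.1 (mem_filter.mp hdq'.2).1
      simp only [Sigma.mk.injEq, Prod.mk.injEq, heq_eq_eq] at h
      obtain ⟨⟨h1, h2⟩, h3⟩ := h
      simp only at hsp hsp'
      subst h1
      rw [h2, h3, hsp'] at hsp
      subst hsp
      rfl
  rw [card_sigma, card_sigma] at hmain
  calc ∑ d ∈ D, ((Q d).card : ℝ) = ((∑ d ∈ D, (Q d).card : ℕ) : ℝ) := by push_cast; rfl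
    _ ≤ ((∑ t ∈ (P.filter Odd) ×ˢ E, (M t).card : ℕ) : ℝ) := Nat.cast_le.mpr hmain
    _ = ∑ t ∈ (P.filter Odd) ×ˢ E, ((M t).card : ℝ) := by push_cast; rfl
    _ ≤ ∑ t ∈ (P.filter Odd) ×ˢ E, 60 * ε * X * (1 / (t.1 : ℝ) * (1 / (t.2 : ℝ))) := by
        refine sum_le_sum fun t ht => ?_
        rw [mem_product] at ht
        obtain ⟨ht1, -⟩ := ht
        rw [mem_filter] at ht1
        have ht3 := (mem_filter.mp ht1.1).2
        exact count_one hl ha hε0 (A := A) (Nat.le_ceil _) hj₀ (J := J) (by omega) (by omega)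
          hJ15 hXX ht3.1 ht1.2 ht3.2
    _ = 60 * ε * X * ((∑ p ∈ P.filter Odd, 1 / (p : ℝ)) * ∑ e ∈ E, 1 / (e : ℝ)) := by
        rw [← mul_sum, sum_mul_sum, sum_product]
    _ ≤ 60 * ε * X * (C₁ * C₂) := by
        have hp1 : ∑ p ∈ P.filter Odd, 1 / (p : ℝ) ≤ C₁ :=
          (sum_le_sum_of_subset_of_nonneg (filter_subset _ _)
            (fun _ _ _ => by positivity)).trans (h₁ X (by omega))
        have hp2 : ∑ e ∈ E, 1 / (e : ℝ) ≤ C₂ := h₂ X (by omega)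
        have hp3 : 0 ≤ ∑ e ∈ E, 1 / (e : ℝ) := sum_nonneg fun _ _ => by positivity
        gcongr
    _ = δ * X := by
        rw [hε]
        field_simp

end Vale.Agent.P017.R4.H222
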