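import Vale.Agent.P017.H185.Fam
import Vale.Agent.P017.R4.Defs

/-!
# P017: no class of order four in `ℚ(√-d)`, `d = 1 mod 4` (row N2)
-/

open NumberField

namespace Vale.Agent.P017.R4.H222

open Vale.Agent.P017.H185

variable {K : Type*} [Field K] [NumberField K] {d : ℕ}

/-- local conditions at the odd ramified primes for a norm `x * b`, `x = 1, 2`, `b ∣ d` -/
theorem norm_local2 (q : QF K d) {b x : ℕ} (hb : b ∣ d) (hx : x = 1 ∨ x = 2) {w : K}
    (hw : q.nm w = ((x * b : ℕ) : ℚ)) {p : ℕ} (hp : p.Prime) (hp2 : p ≠ 2) (hpd : p ∣ d) :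
    (¬ p ∣ b → IsSquare ((x * b : ℕ) : ZMod p)) ∧
      (p ∣ b → IsSquare ((x * (d / b) : ℕ) : ZMod p)) := by
  have := Fact.mk hp
  have hp' : Prime (p : ℤ) := Nat.prime_iff_prime_int.mp hp
  have hx0 : ¬ p ∣ x := by
    rcases hx with rfl | rfl
    · exact hp.one_lt.ne' ∘ Nat.dvd_one.mp
    · intro h
      exact hp2 ((Nat.prime_dvd_prime_iff_eq hp Nat.prime_two).mp h)
  obtain ⟨c, hc⟩ := hb
  have hb0 : b ≠ 0 := by rintro rfl; exact q.d_pos.ne' (by rw [hc, zero_mul])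
  have hdc : d / b = c := by rw [hc]; exact Nat.mul_div_cancel_left c (Nat.pos_of_ne_zero hb0)
  obtain ⟨X, Y, Z, hZ, hX, hY, hprim⟩ := exists_prim (q.re w) (q.im w)
  have heq : X ^ 2 + d * Y ^ 2 = (x * b) * Z ^ 2 := by
    have : (X : ℚ) ^ 2 + d * Y ^ 2 = ((x * b : ℕ) : ℚ) * Z ^ 2 := by
      rw [← hX, ← hY, ← hw, QF.nm]; ring
    exact_mod_cast this
  have hsq : ∀ {e : ℕ}, p * p * e ≠ d := by
    intro e he
    have := q.hd p ⟨e, he.symm⟩
    exact hp.one_lt.ne' (Nat.isUnit_iff.mp this)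
  constructor
  · intro hpa
    obtain ⟨d', hd'⟩ := hpd
    have hpd' : ¬ p ∣ d' := by
      rintro ⟨e, he⟩
      exact hsq (e := e) (by rw [hd', he]; ring)
    have hZp : ¬ (p : ℤ) ∣ Z := by
      intro hZp
      have h1 : (p : ℤ) ∣ X ^ 2 := by
        have : X ^ 2 = (x * b) * Z ^ 2 - p * (d' * Y ^ 2) := by
          rw [hd'] at heq; push_cast at heq; linarith
        rw [this]
        exact dvd_sub (Dvd.dvd.mul_left (Dvd.dvd.pow hZp two_ne_zero) _) (dvd_mul_right _ _)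
      have h2 := hp'.dvd_of_dvd_pow h1
      obtain ⟨u, hu⟩ := h2
      obtain ⟨z, hz⟩ := hZp
      have h3 : (p : ℤ) ∣ d' * Y ^ 2 := by
        refine ⟨(x * b) * z ^ 2 - u ^ 2, ?_⟩
        apply mul_left_cancel₀ hp'.ne_zero
        rw [hd', hu, hz] at heq
        push_cast at heq
        linear_combination heq
      rcases hp'.dvd_or_dvd h3 with h4 | h4
      · exact hpd' (by exact_mod_cast h4)
      · exact hprim p hp ⟨⟨u, hu⟩, hp'.dvd_of_dvd_pow h4, ⟨z, hz⟩⟩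
    have hZ0 : ((Z : ℤ) : ZMod p) ≠ 0 := by
      rwa [Ne, ZMod.intCast_zmod_eq_zero_iff_dvd]
    refine ⟨(X : ZMod p) / Z, ?_⟩
    have h1 : ((X ^ 2 + d * Y ^ 2 : ℤ) : ZMod p) = (((x * b) * Z ^ 2 : ℤ) : ZMod p) := by rw [heq]
    push_cast at h1
    have h2 : (d : ZMod p) = 0 := by
      rw [hd']; simp
    rw [h2] at h1
    push_cast
    field_simp
    linear_combination -h1
  · rintro ⟨b', hb'⟩
    rw [hdc]
    have hpb' : ¬ p ∣ b' := by
      rintro ⟨e, he⟩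
      exact hsq (e := e * c) (by rw [hc, hb', he]; ring)
    have heq2 : X ^ 2 + p * (b' * c * Y ^ 2) = p * (x * b' * Z ^ 2) := by
      rw [hc, hb'] at heq; push_cast at heq; linarith
    have h1 : (p : ℤ) ∣ X ^ 2 := by
      have : X ^ 2 = p * (x * b' * Z ^ 2 - b' * c * Y ^ 2) := by linarith
      exact ⟨_, this⟩
    obtain ⟨u, hu⟩ := hp'.dvd_of_dvd_pow h1
    have heq3 : p * u ^ 2 + b' * c * Y ^ 2 = x * b' * Z ^ 2 := by
      apply mul_left_cancel₀ hp'.ne_zero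
      rw [hu] at heq2
      linear_combination heq2
    have hb'0 : ((b' : ℕ) : ZMod p) ≠ 0 := by
      rwa [Ne, ZMod.natCast_eq_zero_iff]
    have hxp : ((x : ℕ) : ZMod p) ≠ 0 := by
      rwa [Ne, ZMod.natCast_eq_zero_iff]
    have h2 : (c : ZMod p) * (Y : ZMod p) ^ 2 = x * (Z : ZMod p) ^ 2 := by
      have h1 : ((p * u ^ 2 + b' * c * Y ^ 2 : ℤ) : ZMod p) = ((x * b' * Z ^ 2 : ℤ) : ZMod p) := by
        rw [heq3]
      push_cast at h1
      rw [ZMod.natCast_self, zero_mul, zero_add] at h1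
      apply mul_left_cancel₀ hb'0
      linear_combination h1
    by_cases hY0 : ((Y : ℤ) : ZMod p) = 0
    · exfalso
      rw [hY0] at h2
      have hZ0 : ((Z : ℤ) : ZMod p) = 0 := by
        have h5 : ((x : ℕ) : ZMod p) * ((Z : ℤ) : ZMod p) ^ 2 = 0 := by rw [← h2]; ring
        rcases mul_eq_zero.mp h5 with h6 | h6
        · exact absurd h6 hxp
        · exact pow_eq_zero_iff two_ne_zero |>.mp h6
      rw [ZMod.intCast_zmod_eq_zero_iff_dvd] at hY0 hZ0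
      exact hprim p hp ⟨⟨u, hu⟩, hY0, hZ0⟩
    · refine ⟨(x : ZMod p) * Z / Y, ?_⟩
      push_cast
      field_simp
      linear_combination h2

/-- Rédei's criterion, `d = 1 mod 4` -/
theorem no_order_four1 (q : QF K d) (hd4 : d % 4 = 1) (hR : Redei2 d) :
    ∀ c : ClassGroup (𝓞 K), orderOf c ≠ 4 := by
  intro c hc
  obtain ⟨⟨I₀, hI₀⟩, rfl⟩ := ClassGroup.mk0_surjective c
  have hI₀0 : I₀ ≠ ⊥ := nonZeroDivisors.ne_zero hI₀
  obtain ⟨n₀, hn₀, hIn₀⟩ := q.exists_hasN hI₀0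
  have hI0 : I₀ * I₀ ≠ ⊥ := mul_ne_zero hI₀0 hI₀0
  have hpow : (ClassGroup.mk0 ⟨I₀, hI₀⟩) ^ 4 = 1 := by rw [← hc]; exact pow_orderOf_eq_one _
  have hpow' : ClassGroup.mk0 ⟨(I₀ * I₀) * (I₀ * I₀), mem_nonZeroDivisors_of_ne_zero
      (mul_ne_zero hI0 hI0)⟩ = 1 := by
    rw [← hpow]
    rw [show (4 : ℕ) = 2 + 2 by norm_num, pow_add, sq, ← map_mul, ← map_mul]
    rfl
  obtain ⟨γ, hγ⟩ := ((ClassGroup.mk0_eq_one_iff _).mp hpow').principal
  have hγ' : (I₀ * I₀) * (I₀ * I₀) = Ideal.span {γ} := hγ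
  obtain ⟨a, ha, hram, ⟨J, hJJ, x, y, hx, hy, hxy⟩, w, hw, hwn⟩ :=
    q.amb hI0 (hIn₀.mul hIn₀) hγ'
  -- the odd part
  obtain ⟨e, b, he, hab, hb2⟩ : ∃ e b : ℕ, (e = 1 ∨ e = 2) ∧ a = e * b ∧ ¬ 2 ∣ b := by
    by_cases h2 : 2 ∣ a
    · obtain ⟨b, hb⟩ := h2
      refine ⟨2, b, Or.inr rfl, hb, ?_⟩
      rintro ⟨b', hb'⟩
      have := ha 2 ⟨b', by rw [hb, hb']; ring⟩
      exact absurd (Nat.isUnit_iff.mp this) (by norm_num)
    · exact ⟨1, a, Or.inl rfl, (one_mul a).symm, h2⟩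
  have hbsq : Squarefree b := ha.squarefree_of_dvd ⟨e, by rw [hab]; ring⟩
  have hbd : b ∣ d := by
    rw [← Nat.prod_primeFactors_of_squarefree hbsq]
    refine Finset.prod_primes_dvd _ (fun p hp => (Nat.prime_of_mem_primeFactors hp).prime)
      (fun p hp => ?_)
    have hpp := Nat.prime_of_mem_primeFactors hp
    have hpb := Nat.dvd_of_mem_primeFactors hp
    rcases hram p hpp (hpb.trans ⟨e, by rw [hab]; ring⟩) with h | h
    · exact h
    · exact absurd (h.1 ▸ hpb) hb2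
  have hn₀Q : (n₀ : ℚ) ≠ 0 := by exact_mod_cast hn₀
  have hnma : q.nm (w * (((n₀ : ℚ)⁻¹ : ℚ) : K)) = ((e * b : ℕ) : ℚ) := by
    rw [q.nm_mul, q.nm_rat, ← hwn, ← hab]
    push_cast
    field_simp
  obtain ⟨he1, hb1⟩ := hR b e hbd he (fun p hp hpd => norm_local2 q hbd he hnma hp
    (by rintro rfl; omega) hpd)
  have hJ0 : J ≠ ⊥ := by
    rintro rfl
    rw [Ideal.bot_mul] at hJJ
    exact ha.ne_zero (by exact_mod_cast Ideal.span_singleton_eq_bot.mp hJJ.symm)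
  have hJp : ∃ g : 𝓞 K, J = Ideal.span {g} := by
    rw [he1, one_mul] at hab
    rcases hb1 with h | h
    · refine ⟨1, QF.eq_span_of_mul_self one_ne_zero ?_⟩
      rw [hJJ, hab, h]; simp
    · refine ⟨q.t, QF.eq_span_of_mul_self q.t_ne_zero ?_⟩
      rw [hJJ, hab, h, ← sq, q.t_sq, Ideal.span_singleton_neg]
  obtain ⟨g, hg⟩ := hJp
  have hJ1 : ClassGroup.mk0 ⟨J, mem_nonZeroDivisors_of_ne_zero hJ0⟩ = 1 := by
    rw [ClassGroup.mk0_eq_one_iff]
    exact ⟨⟨g, hg⟩⟩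
  have hIJ : ClassGroup.mk0 ⟨I₀ * I₀, mem_nonZeroDivisors_of_ne_zero hI0⟩ =
      ClassGroup.mk0 ⟨J, mem_nonZeroDivisors_of_ne_zero hJ0⟩ := by
    rw [ClassGroup.mk0_eq_mk0_iff]
    exact ⟨x, y, hx, hy, hxy⟩
  have h2 : (ClassGroup.mk0 ⟨I₀, hI₀⟩) ^ 2 = 1 := by
    rw [sq, ← map_mul]
    exact hIJ.trans hJ1
  have := orderOf_dvd_of_pow_eq_one h2
  rw [hc] at this
  norm_num at this

universe u

/-- **(N2)** -/
theorem stmtFin2 : StmtFin2.{u} := by
  intro m hm hm4 hok hR K _ _ _ θ hθ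
  have hθ' : (θ / 2) ^ 2 = -(m : K) := by
    rw [div_pow, hθ]
    push_cast
    ring
  obtain ⟨q⟩ := exists_QF_of_sqrt hm hθ'
  apply q.finite_of_cond (no_order_four1 q hm4 hR)
  · intro h3 h
    have h1 : ((m : ℕ) : ZMod 3) = ((1 : ℕ) : ZMod 3) := by rw [h]; simp
    have h2 := (ZMod.natCast_eq_natCast_iff _ _ _).mp h1
    have h3' : m % 3 = 1 % 3 := h2
    rcases hok.1 with h5 | h5
    · exact h3 h5
    · omega
  · intro h5 h
    rcases hok.2 with hr | hr | hr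
    · exact h5 hr
    · have h1 : ((m : ℕ) : ZMod 5) = ((2 : ℕ) : ZMod 5) := by
        rw [ZMod.natCast_eq_natCast_iff]
        show m % 5 = 2 % 5
        omega
      rw [h1] at h
      revert h
      decide
    · have h1 : ((m : ℕ) : ZMod 5) = ((3 : ℕ) : ZMod 5) := by
        rw [ZMod.natCast_eq_natCast_iff]
        show m % 5 = 3 % 5
        omega
      rw [h1] at h
      revert h
      decide

end Vale.Agent.P017.R4.H222
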