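import Vale.Agent.P017.R4.Defs
import Vale.Agent.P017.R3.H224.S2

/-!
# P017, row D2: the system of case II (`ℚ(√-m)`, `m = 1 mod 4`)
-/

open Finset

namespace Vale.Agent.P017.R4.H222

open Vale.Agent.P017.R3
open Vale.Agent.P017.R3.H224 (eqv eqv_some eqv_none mat_ext mu_ext ck_equiv ext_submatrix extv_comp
  avg_mem card_PF sum_option eqv2 rec_AA bit_rec pf_ne_two AA_off AA_diag Mat_eq ck_ext_le)
open Vale.Agent.P017.R2.H985 (bit PF Pat sym Mat cork)
open Vale.Agent.P017.R3.H285 (L15 res sum_res sum_ok card_L15 okc_iff free_mul res_sym)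

/-! ### The model -/

theorem prob3_mem : ∀ (ε : List (ZMod 2)) (V : Type) [Fintype V] [DecidableEq V]
    (M : Matrix V V (ZMod 2)) (μ st : V → ZMod 2), 0 ≤ prob3 ε V M μ st ∧ prob3 ε V M μ st ≤ 1
  | [], V, _, _, M, μ, st => by
    unfold prob3
    split_ifs <;> norm_num
  | e :: ε, V, _, _, M, μ, st => by
    unfold prob3
    have h := fun (φ : V → ZMod 2) (w : ZMod 2) =>
      prob3_mem ε (Option V) (ext M (cl e st φ) (φ + e • μ) w) (extv μ e) (extv st 0)
    constructor
    · exact div_nonneg (sum_nonneg fun φ _ => sum_nonneg fun w _ => (h φ w).1) (by positivity)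
    · rw [div_le_one (by positivity)]
      calc ∑ φ : V → ZMod 2, ∑ w : ZMod 2,
            prob3 ε (Option V) (ext M (cl e st φ) (φ + e • μ) w) (extv μ e) (extv st 0)
          ≤ ∑ φ : V → ZMod 2, ∑ w : ZMod 2, (1 : ℝ) :=
            sum_le_sum fun φ _ => sum_le_sum fun w _ => (h φ w).2
        _ = 2 ^ (Fintype.card V + 1) := by
            rw [sum_const, sum_const, card_univ, card_univ, Fintype.card_fun, ZMod.card]
            simp only [nsmul_eq_mul, mul_one]
            push_cast
            ring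

theorem cl_comp {V V' : Type} (e : V ≃ V') (x : ZMod 2) (st φ : V' → ZMod 2) :
    cl x st φ ∘ e = cl x (st ∘ e) (φ ∘ e) := rfl

theorem prob3_equiv : ∀ (ε : List (ZMod 2)) (V V' : Type) [Fintype V] [Fintype V']
    [DecidableEq V] [DecidableEq V'] (e : V ≃ V') (M : Matrix V' V' (ZMod 2))
    (μ st : V' → ZMod 2),
    prob3 ε V (M.submatrix e e) (μ ∘ e) (st ∘ e) = prob3 ε V' M μ st
  | [], V, V', _, _, _, _, e, M, μ, st => by
    unfold prob3
    rw [ck_equiv]
  | x :: ε, V, V', _, _, _, _, e, M, μ, st => by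
    unfold prob3
    rw [Fintype.card_congr e]
    congr 1
    refine Fintype.sum_equiv (Equiv.arrowCongr e (Equiv.refl _)) _ _ fun φ => ?_
    refine sum_congr rfl fun w _ => ?_
    rw [← prob3_equiv ε (Option V) (Option V') (Equiv.optionCongr e), ext_submatrix, extv_comp,
      extv_comp, cl_comp]
    congr 2
    · congr 1
      funext a
      simp [Equiv.arrowCongr]
    · funext a
      simp [Equiv.arrowCongr]

/-! ### The new prime -/

section new

variable {n p : ℕ} (hn : n ≠ 0) (hp : p.Prime) (hpn : ¬ p ∣ n)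

/-- splitting of a vector on the new index set -/
noncomputable def lowv (u : Option (PF (n * p)) → ZMod 2) : Option (PF n) → ZMod 2 :=
  extv (fun q => u (some (eqv hn hp hpn (some q)))) (u none)

theorem mat_ext3 (hodd : Odd n) (hp2 : p ≠ 2) (u : Option (PF (n * p)) → ZMod 2) :
    (AA2 (n * p) + Matrix.diagonal u).submatrix (eqv2 hn hp hpn) (eqv2 hn hp hpn) =
      ext (AA2 n + Matrix.diagonal (lowv hn hp hpn u))
        (cl (eps p) (extv 0 1) (extv (sym n p) (bit 2 p)))
        (extv (sym n p) (bit 2 p) + eps p • extv (mu n) 0)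
        (u (some (eqv hn hp hpn none))) := by
  have h0 := mat_ext hodd hn hp hp2 hpn (fun q => u (some q))
  have h1 : ∀ a b : Option (PF n), (AA (n * p) + Matrix.diagonal (fun q => u (some q)))
      (eqv hn hp hpn a) (eqv hn hp hpn b) =
      ext (AA n + Matrix.diagonal (fun q => u (some (eqv hn hp hpn (some q)))))
        (sym n p) (sym n p + eps p • mu n) (u (some (eqv hn hp hpn none))) a b := by
    intro a b
    rw [← h0]
    rfl
  have h2 : ∀ q q' : PF (n * p), (AA2 (n * p) + Matrix.diagonal u) (some q) (some q') =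
      (AA (n * p) + Matrix.diagonal (fun q => u (some q))) q q' := by
    intro q q'
    rw [Matrix.add_apply, Matrix.add_apply]
    congr 1
    by_cases h : q = q'
    · subst h
      rw [Matrix.diagonal_apply_eq, Matrix.diagonal_apply_eq]
    · rw [Matrix.diagonal_apply_ne _ h, Matrix.diagonal_apply_ne _ (fun h' => h (Option.some.inj h'))]
  have h3 : ∀ q q' : PF n, (AA2 n + Matrix.diagonal (lowv hn hp hpn u)) (some q) (some q') =
      (AA n + Matrix.diagonal (fun q => u (some (eqv hn hp hpn (some q))))) q q' := by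
    intro q q'
    rw [Matrix.add_apply, Matrix.add_apply]
    congr 1
    by_cases h : q = q'
    · subst h
      rw [Matrix.diagonal_apply_eq, Matrix.diagonal_apply_eq]
      rfl
    · rw [Matrix.diagonal_apply_ne _ h, Matrix.diagonal_apply_ne _ (fun h' => h (Option.some.inj h'))]
  ext a b
  rw [Matrix.submatrix_apply]
  match a, b with
  | none, none => exact (h2 _ _).trans (h1 none none)
  | none, some none =>
    show (AA2 (n * p) + Matrix.diagonal u) (some (eqv hn hp hpn none)) none =
      bit 2 p + eps p * 0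
    rw [Matrix.add_apply, Matrix.diagonal_apply_ne _ (by simp), mul_zero]
    rfl
  | none, some (some q) => exact (h2 _ _).trans (h1 none (some q))
  | some none, none =>
    show (AA2 (n * p) + Matrix.diagonal u) none (some (eqv hn hp hpn none)) = _
    rw [Matrix.add_apply, Matrix.diagonal_apply_ne _ (by simp), add_zero]
    rfl
  | some none, some none =>
    show (AA2 (n * p) + Matrix.diagonal u) none none =
      (AA2 n + Matrix.diagonal (lowv hn hp hpn u)) none none
    rw [Matrix.add_apply, Matrix.add_apply, Matrix.diagonal_apply_eq, Matrix.diagonal_apply_eq]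
    rfl
  | some none, some (some q) =>
    show (AA2 (n * p) + Matrix.diagonal u) none (some (eqv hn hp hpn (some q))) =
      (AA2 n + Matrix.diagonal (lowv hn hp hpn u)) none (some q)
    rw [Matrix.add_apply, Matrix.add_apply, Matrix.diagonal_apply_ne _ (by simp),
      Matrix.diagonal_apply_ne _ (by simp)]
    rfl
  | some (some q), none =>
    refine (h2 _ _).trans ((h1 (some q) none).trans ?_)
    show sym n p q = if (0 : ZMod 2) = 1 then eps p else sym n p q
    rw [if_neg zero_ne_one]
  | some (some q), some none =>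
    show (AA2 (n * p) + Matrix.diagonal u) (some (eqv hn hp hpn (some q))) none =
      (AA2 n + Matrix.diagonal (lowv hn hp hpn u)) (some q) none
    rw [Matrix.add_apply, Matrix.add_apply, Matrix.diagonal_apply_ne _ (by simp),
      Matrix.diagonal_apply_ne _ (by simp)]
    rfl
  | some (some q), some (some q') =>
    exact (h2 _ _).trans ((h1 (some q) (some q')).trans (h3 q q').symm)

theorem sum_new3 (F : (Option (PF n) → ZMod 2) → ZMod 2 → ℝ) :
    ∑ u : Option (PF (n * p)) → ZMod 2, F (lowv hn hp hpn u) (u (some (eqv hn hp hpn none))) =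
      ∑ v : Option (PF n) → ZMod 2, ∑ w : ZMod 2, F v w := by
  have h4 := Fintype.sum_equiv
    (Equiv.arrowCongr (eqv2 hn hp hpn).symm (Equiv.refl (ZMod 2)))
    (fun u : Option (PF (n * p)) → ZMod 2 =>
      F (lowv hn hp hpn u) (u (some (eqv hn hp hpn none))))
    (fun u : Option (Option (PF n)) → ZMod 2 => F (fun q => u (some q)) (u none)) (fun u => by
      have e1 : lowv hn hp hpn u = fun q => (Equiv.arrowCongr (eqv2 hn hp hpn).symm
          (Equiv.refl (ZMod 2)) u) (some q) := by
        funext q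
        cases q <;> rfl
      rw [e1]
      rfl)
  rw [h4, sum_option]

end new

noncomputable def G3 (ε : List (ZMod 2)) (e n : ℕ) (φ : Pat n) (ρ : ZMod 2) : ℝ :=
  avg (fun u : Option (PF n) → ZMod 2 => (∑ w : ZMod 2, prob3 ε (Option (Option (PF n)))
    (ext (AA2 n + Matrix.diagonal u) (cl (eps e) (extv 0 1) (extv φ ρ))
      (extv φ ρ + eps e • extv (mu n) 0) w)
    (extv (extv (mu n) 0) (eps e)) (extv (extv 0 1) 0)) / 2)

theorem G3_nonneg (ε : List (ZMod 2)) (e n : ℕ) (φ : Pat n) (ρ : ZMod 2) : 0 ≤ G3 ε e n φ ρ := by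
  unfold G3 avg
  exact div_nonneg (sum_nonneg fun u _ => div_nonneg (sum_nonneg fun w _ =>
    (prob3_mem _ _ _ _ _).1) (by norm_num)) (by positivity)

theorem FF2'_mul {n p : ℕ} (hodd : Odd n) (hn : n ≠ 0) (hp : p.Prime) (hp2 : p ≠ 2)
    (hpn : ¬ p ∣ n) (ε : List (ZMod 2)) {e : ℕ} (he : eps p = eps e) :
    FF2' ε (n * p) = G3 ε e n (sym n p) (bit 2 p) := by
  unfold FF2' G3 avg
  have h1 : ∀ u : Option (PF (n * p)) → ZMod 2,
      prob3 ε (Option (PF (n * p))) (AA2 (n * p) + Matrix.diagonal u) (extv (mu (n * p)) 0)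
        (extv 0 1) =
      (fun (v : Option (PF n) → ZMod 2) (w : ZMod 2) => prob3 ε (Option (Option (PF n)))
        (ext (AA2 n + Matrix.diagonal v) (cl (eps e) (extv 0 1) (extv (sym n p) (bit 2 p)))
          (extv (sym n p) (bit 2 p) + eps e • extv (mu n) 0) w)
        (extv (extv (mu n) 0) (eps e)) (extv (extv 0 1) 0))
        (lowv hn hp hpn u) (u (some (eqv hn hp hpn none))) := by
    intro u
    rw [← prob3_equiv ε _ _ (eqv2 hn hp hpn), mat_ext3 hn hp hpn hodd hp2,
      Vale.Agent.P017.R3.H224.mu_ext2, Vale.Agent.P017.R3.H224.st_ext2, he]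
  have h2 : Fintype.card (Option (PF (n * p))) = Fintype.card (Option (PF n)) + 1 := by
    rw [← Fintype.card_congr (eqv2 hn hp hpn), Fintype.card_option]
  rw [sum_congr rfl fun u _ => h1 u, h2,
    sum_new3 hn hp hpn (fun (v : Option (PF n) → ZMod 2) (w : ZMod 2) =>
      prob3 ε (Option (Option (PF n)))
        (ext (AA2 n + Matrix.diagonal v) (cl (eps e) (extv 0 1) (extv (sym n p) (bit 2 p)))
          (extv (sym n p) (bit 2 p) + eps e • extv (mu n) 0) w)
        (extv (extv (mu n) 0) (eps e)) (extv (extv 0 1) 0)), pow_succ, ← sum_div]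
  field_simp

theorem extv_eta {V : Type} (u : Option V → ZMod 2) : extv (fun q => u (some q)) (u none) = u := by
  funext a
  cases a <;> rfl

theorem sum_extv {V : Type} [Fintype V] [DecidableEq V] (F : (Option V → ZMod 2) → ℝ) :
    ∑ φ : V → ZMod 2, ∑ ρ : ZMod 2, F (extv φ ρ) = ∑ u : Option V → ZMod 2, F u := by
  have h := sum_option (V := V) (fun φ ρ => F (extv φ ρ))
  simp only [extv_eta] at h
  exact h.symm

theorem G3_sum (ε : List (ZMod 2)) (e n : ℕ) :
    ∑ φ : Pat n, ∑ ρ : ZMod 2, G3 ε e n φ ρ =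
      2 ^ (n.primeFactors.card + 1) * FF2' (eps e :: ε) n := by
  unfold G3 FF2' avg
  have h1 : ∀ u : Option (PF n) → ZMod 2, ∑ φ : Pat n, ∑ ρ : ZMod 2,
      (∑ w : ZMod 2, prob3 ε (Option (Option (PF n)))
        (ext (AA2 n + Matrix.diagonal u) (cl (eps e) (extv 0 1) (extv φ ρ))
          (extv φ ρ + eps e • extv (mu n) 0) w)
        (extv (extv (mu n) 0) (eps e)) (extv (extv 0 1) 0)) / 2 =
      2 ^ (n.primeFactors.card + 1) * prob3 (eps e :: ε) (Option (PF n))
        (AA2 n + Matrix.diagonal u) (extv (mu n) 0) (extv 0 1) := by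
    intro u
    rw [sum_extv (fun φ : Option (PF n) → ZMod 2 => (∑ w : ZMod 2,
      prob3 ε (Option (Option (PF n)))
        (ext (AA2 n + Matrix.diagonal u) (cl (eps e) (extv 0 1) φ)
          (φ + eps e • extv (mu n) 0) w)
        (extv (extv (mu n) 0) (eps e)) (extv (extv 0 1) 0)) / 2)]
    rw [prob3, Fintype.card_option, card_PF, ← sum_div, pow_succ _ (n.primeFactors.card + 1)]
    field_simp
  have h6 : ∑ φ : Pat n, ∑ ρ : ZMod 2, ∑ u : Option (PF n) → ZMod 2,
      (∑ w : ZMod 2, prob3 ε (Option (Option (PF n)))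
        (ext (AA2 n + Matrix.diagonal u) (cl (eps e) (extv 0 1) (extv φ ρ))
          (extv φ ρ + eps e • extv (mu n) 0) w)
        (extv (extv (mu n) 0) (eps e)) (extv (extv 0 1) 0)) / 2 =
      2 ^ (n.primeFactors.card + 1) * ∑ u : Option (PF n) → ZMod 2, prob3 (eps e :: ε)
        (Option (PF n)) (AA2 n + Matrix.diagonal u) (extv (mu n) 0) (extv 0 1) := by
    have h7 : ∀ X : Pat n → ZMod 2 → (Option (PF n) → ZMod 2) → ℝ,
        ∑ a, ∑ b, ∑ c, X a b c = ∑ c, ∑ a, ∑ b, X a b c := by
      intro X
      have h8 : ∀ a, ∑ b, ∑ c, X a b c = ∑ c, ∑ b, X a b c := fun a => sum_comm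
      simp only [h8]
      exact sum_comm
    rw [h7, sum_congr rfl fun u _ => h1 u, mul_sum]
  rw [← mul_div_assoc, ← h6]
  simp only [sum_div]

theorem sum_MM2' (n : ℕ) : ∑ w : Pat n, ∑ ρ : ZMod 2, (if ck (MM2' n w ρ) = 0 then (1 : ℝ) else 0) =
    2 ^ (n.primeFactors.card + 1) * FF2' [] n := by
  have h1 : ∑ w : Pat n, ∑ ρ : ZMod 2, (if ck (MM2' n w ρ) = 0 then (1 : ℝ) else 0) =
      ∑ w : Pat n, ∑ ρ : ZMod 2,
        (if ck (AA2 n + Matrix.diagonal (extv w ρ)) = 0 then (1 : ℝ) else 0) := by
    refine Fintype.sum_equiv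
      (Equiv.addRight (fun q : PF n => ∑ r ∈ univ.erase q, bit ((r : ℕ) : ℤ) (q : ℕ))) _ _
      fun w => ?_
    refine Fintype.sum_equiv (Equiv.addRight (∑ q : PF n, bit 2 (q : ℕ))) _ _ fun ρ => ?_
    have h2 : MM2' n w ρ = AA2 n + Matrix.diagonal (extv
        ((Equiv.addRight (fun q : PF n => ∑ r ∈ univ.erase q, bit ((r : ℕ) : ℤ) (q : ℕ))) w)
        ((Equiv.addRight (∑ q : PF n, bit 2 (q : ℕ))) ρ)) := by
      ext a b
      rw [Matrix.add_apply]
      match a, b with
      | none, none =>
        rw [Matrix.diagonal_apply_eq]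
        exact (zero_add _).symm
      | none, some q =>
        rw [Matrix.diagonal_apply_ne _ (by simp)]
        exact (add_zero _).symm
      | some q, none =>
        rw [Matrix.diagonal_apply_ne _ (by simp)]
        exact (add_zero _).symm
      | some q, some q' =>
        show Mat n w q q' = AA n q q' + _
        rw [Mat_eq, Matrix.add_apply]
        congr 1
        by_cases h : q = q'
        · subst h
          rw [Matrix.diagonal_apply_eq, Matrix.diagonal_apply_eq]
          rfl
        · rw [Matrix.diagonal_apply_ne _ h,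
            Matrix.diagonal_apply_ne _ (fun h' => h (Option.some.inj h'))]
    rw [h2]
  rw [h1, sum_extv (fun u : Option (PF n) → ZMod 2 =>
    if ck (AA2 n + Matrix.diagonal u) = 0 then (1 : ℝ) else 0)]
  unfold FF2' avg
  simp only [prob3, Fintype.card_option, Fintype.card_coe]
  field_simp

theorem s2_hyp8 (hR : StmtRed2') : Hyp8 S2' := by
  classical
  refine ⟨fun ε n => avg_mem fun u => prob3_mem _ _ _ _ _, fun n p hp h5 => free_mul hp h5,
    ?_, ?_⟩
  · intro n hn ho ε e he
    refine ⟨fun φ ρ => G3 ε e n (res hn.ne_zero φ) ρ, fun φ ρ => G3_nonneg _ _ _ _ _,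
      fun p hp h5 hpn hpe => ?_, ?_⟩
    · refine FF2'_mul ho hn.ne_zero hp (by omega) hpn ε ?_
      unfold eps
      rcases he with rfl | rfl
      · rw [hpe]
      · rw [hpe]
    · rw [sum_res hn.ne_zero (fun w => ∑ ρ, G3 ε e n w ρ), G3_sum]
      have h := card_L15 hn.ne_zero
      show _ = 2 * (Fintype.card (Pat (L15 n)) : ℝ) * FF2' (eps e :: ε) n
      rw [h, pow_succ]
      ring
  · intro n hn ho e he
    have hn0 := hn.ne_zero
    refine ⟨univ.filter (fun t : Pat (L15 n) × ZMod 2 =>
        (∀ q : PF (L15 n), ¬ (q : ℕ) ∣ n → t.1 q = 1 + bit (n : ℤ) (q : ℕ)) ∧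
          ck (MM2' n (res hn0 t.1) t.2) = 0),
      univ.filter (fun t : Pat (L15 n) × ZMod 2 =>
        ∀ q : PF (L15 n), ¬ (q : ℕ) ∣ n → t.1 q = 1 + bit (n : ℤ) (q : ℕ)), ?_, ?_, ?_, ?_⟩
    · intro p hp h5 hpn hpe hA
      rw [mem_filter] at hA
      exact ⟨(okc_iff hn0 hp h5).2 hA.2.1, fun h4 => hR n hn ho p hp (by omega) hpn h4 hA.2.2⟩
    · intro p hp h5 hpn hpe hok
      rw [mem_filter]
      exact ⟨mem_univ _, (okc_iff hn0 hp h5).1 hok⟩
    · have h1 : ((univ.filter (fun t : Pat (L15 n) × ZMod 2 =>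
          (∀ q : PF (L15 n), ¬ (q : ℕ) ∣ n → t.1 q = 1 + bit (n : ℤ) (q : ℕ)) ∧
          ck (MM2' n (res hn0 t.1) t.2) = 0)).card : ℝ) =
          2 ^ (n.primeFactors.card + 1) * FF2' [] n := by
        rw [← sum_MM2', ← sum_ok hn0
          (fun w => ∑ ρ : ZMod 2, (if ck (MM2' n w ρ) = 0 then (1 : ℝ) else 0)),
          card_filter, Fintype.sum_prod_type]
        push_cast
        refine sum_congr rfl fun φ _ => ?_
        by_cases h : ∀ q : PF (L15 n), ¬ (q : ℕ) ∣ n → φ q = 1 + bit (n : ℤ) (q : ℕ)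
        · rw [if_pos h]
          refine sum_congr rfl fun ρ _ => ?_
          by_cases h' : ck (MM2' n (res hn0 φ) ρ) = 0
          · rw [if_pos ⟨h, h'⟩, if_pos h']
          · rw [if_neg (fun h'' => h' h''.2), if_neg h']
        · rw [if_neg h]
          refine sum_eq_zero fun ρ _ => ?_
          rw [if_neg (fun h'' => h h''.1)]
      rw [h1]
      show FF2' [] n * (2 * (Fintype.card (Pat (L15 n)) : ℝ) / 2 ^ free n) ≤ _
      rw [card_L15 hn0]
      have h7 : (0 : ℝ) < 2 ^ free n := by positivity
      apply le_of_eq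
      rw [pow_succ]
      field_simp
    · have h1 : ((univ.filter (fun t : Pat (L15 n) × ZMod 2 =>
          ∀ q : PF (L15 n), ¬ (q : ℕ) ∣ n → t.1 q = 1 + bit (n : ℤ) (q : ℕ))).card : ℝ) =
          2 * 2 ^ n.primeFactors.card := by
        have h2 := sum_ok hn0 (fun _ => (1 : ℝ))
        rw [card_filter, Fintype.sum_prod_type]
        push_cast
        have h3 : ∀ φ : Pat (L15 n), ∑ ρ : ZMod 2, (if (∀ q : PF (L15 n), ¬ (q : ℕ) ∣ n →
            φ q = 1 + bit (n : ℤ) (q : ℕ)) then (1 : ℝ) else 0) =
            2 * (if (∀ q : PF (L15 n), ¬ (q : ℕ) ∣ n →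
            φ q = 1 + bit (n : ℤ) (q : ℕ)) then (1 : ℝ) else 0) := by
          intro φ
          rw [sum_const, card_univ, ZMod.card, nsmul_eq_mul]
          push_cast
          ring
        rw [sum_congr rfl fun φ _ => h3 φ, ← mul_sum, h2, sum_const, card_univ, Fintype.card_fun,
          ZMod.card, Fintype.card_coe, nsmul_eq_mul]
        push_cast
        ring
      rw [h1]
      show _ ≤ 2 * (Fintype.card (Pat (L15 n)) : ℝ) / 2 ^ free n
      rw [card_L15 hn0]
      have h7 : (0 : ℝ) < 2 ^ free n := by positivity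
      apply le_of_eq
      field_simp

theorem rec3_AA2 (n : ℕ) (hodd : Odd n) (u : Option (PF n) → ZMod 2) :
    Rec3 (AA2 n + Matrix.diagonal u) (extv (mu n) 0) (extv 0 1) := by
  refine ⟨?_, ?_, ?_, ⟨none, rfl⟩, ?_⟩
  · intro a b hab ha hb
    match a, b with
    | none, _ => exact absurd ha one_ne_zero
    | some _, none => exact absurd hb one_ne_zero
    | some q, some q' =>
      have hne : q ≠ q' := fun h => hab (by rw [h])
      have h := rec_AA n hodd q q' hne
      show (AA2 n + Matrix.diagonal u) (some q) (some q') +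
        (AA2 n + Matrix.diagonal u) (some q') (some q) = mu n q * mu n q'
      rw [Matrix.add_apply, Matrix.add_apply, Matrix.diagonal_apply_ne _ hab,
        Matrix.diagonal_apply_ne _ hab.symm, add_zero, add_zero]
      exact h
  · intro a b ha hab
    match a, b with
    | none, none => exact absurd rfl hab
    | none, some q =>
      rw [Matrix.add_apply, Matrix.diagonal_apply_ne _ hab, add_zero]
      rfl
    | some _, _ => exact absurd ha zero_ne_one
  · intro a b ha hb
    match a, b with
    | none, none => rfl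
    | none, some _ => exact absurd hb zero_ne_one
    | some _, _ => exact absurd ha zero_ne_one
  · intro a ha
    match a with
    | none => rfl
    | some _ => exact absurd ha zero_ne_one

theorem s2_rm3 (hRM : StmtRM3) : S2'.StmtRM := by
  intro η B hη
  obtain ⟨h, k, hk⟩ := hRM η (2 * B) hη
  refine ⟨h, k, fun ε m d hm ho hmd hok hc hB => ?_⟩
  have h1 := hk ε (Option (PF m)) (Option (PF m) → ZMod 2) (fun u => AA2 m + Matrix.diagonal u)
    (extv (mu m) 0) (extv 0 1) (fun u => rec3_AA2 m ho u) hc ?_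
  · show η ≤ FF2' ε m
    unfold FF2' avg
    rw [Fintype.card_fun, ZMod.card] at h1
    push_cast at h1
    exact h1
  · have h2 : ∑ u : Option (PF m) → ZMod 2, (2 : ℝ) ^ ck (AA2 m + Matrix.diagonal u) ≤
        4 * ∑ u : PF m → ZMod 2, (2 : ℝ) ^ ck (AA m + Matrix.diagonal u) := by
      rw [← sum_extv (fun u : Option (PF m) → ZMod 2 =>
        (2 : ℝ) ^ ck (AA2 m + Matrix.diagonal u)), mul_sum]
      refine sum_le_sum fun u _ => ?_
      have h3 : ∀ ρ : ZMod 2, (2 : ℝ) ^ ck (AA2 m + Matrix.diagonal (extv u ρ)) ≤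
          2 * (2 : ℝ) ^ ck (AA m + Matrix.diagonal u) := by
        intro ρ
        have e : AA2 m + Matrix.diagonal (extv u ρ) =
            ext (AA m + Matrix.diagonal u) (fun q => bit 2 (q : ℕ)) (mu m) ρ := by
          ext a b
          rw [Matrix.add_apply]
          match a, b with
          | none, none =>
            rw [Matrix.diagonal_apply_eq]
            exact zero_add _
          | none, some q =>
            rw [Matrix.diagonal_apply_ne _ (by simp)]
            exact add_zero _
          | some q, none =>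
            rw [Matrix.diagonal_apply_ne _ (by simp)]
            exact add_zero _
          | some q, some q' =>
            show AA m q q' + _ = (AA m + Matrix.diagonal u) q q'
            rw [Matrix.add_apply]
            congr 1
            by_cases h : q = q'
            · subst h
              rw [Matrix.diagonal_apply_eq, Matrix.diagonal_apply_eq]
              rfl
            · rw [Matrix.diagonal_apply_ne _ h,
                Matrix.diagonal_apply_ne _ (fun h' => h (Option.some.inj h'))]
        rw [e]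
        calc (2 : ℝ) ^ ck (ext (AA m + Matrix.diagonal u) (fun q => bit 2 (q : ℕ)) (mu m) ρ)
            ≤ 2 ^ (ck (AA m + Matrix.diagonal u) + 1) :=
              pow_le_pow_right₀ (by norm_num) (ck_ext_le _ _ _ _)
          _ = _ := by rw [pow_succ]; ring
      calc ∑ ρ : ZMod 2, (2 : ℝ) ^ ck (AA2 m + Matrix.diagonal (extv u ρ))
          ≤ ∑ ρ : ZMod 2, 2 * (2 : ℝ) ^ ck (AA m + Matrix.diagonal u) :=
            sum_le_sum fun ρ _ => h3 ρ
        _ = 4 * (2 : ℝ) ^ ck (AA m + Matrix.diagonal u) := by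
            rw [sum_const, card_univ, ZMod.card, nsmul_eq_mul]
            push_cast
            ring
    have h5 : (∑ u : PF m → ZMod 2, (2 : ℝ) ^ ck (AA m + Matrix.diagonal u)) /
        2 ^ Fintype.card (PF m) ≤ B := hB
    rw [Fintype.card_fun, ZMod.card, Fintype.card_option]
    push_cast
    rw [pow_succ]
    rw [div_le_iff₀ (by positivity)] at h5 ⊢
    linarith

/-- **(D2)** -/
theorem stmtS2' : StmtS2' := fun hR hRM => ⟨s2_hyp8 hR, s2_rm3 hRM⟩

end Vale.Agent.P017.R4.H222
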